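import Vale.Agent.P352X.SN.Inst

/-!
# P352X, block SN: generators, domains, cores and positivity
-/

noncomputable section

open MeasureTheory Filter Topology Complex Set
open scoped ENNReal NNReal ComplexConjugate

namespace Vale.Agent.P352X.SN

variable {X : Type*} [MeasurableSpace X]
variable {H : Type*} [NormedAddCommGroup H] [InnerProductSpace ℂ H] [CompleteSpace H]

namespace Calc

variable {C : Calc X H} {f g : X → ℂ} {v w : H}

lemma lintegral_sq (hf : C.Dom f v) :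
    ∫⁻ p, ENNReal.ofReal (‖f p‖ ^ 2) ∂C.nu v = ENNReal.ofReal (‖C.Psi f v‖ ^ 2) := by
  rw [← ofReal_integral_eq_lintegral_ofReal hf.integrable_sq
    (Eventually.of_forall fun p => by positivity), norm_Psi_sq hf]

lemma dom_of_lintegral (hf : Measurable f) {K : ℝ} (hK : 0 ≤ K)
    (h : ∫⁻ p, ENNReal.ofReal (‖f p‖ ^ 2) ∂C.nu v ≤ ENNReal.ofReal (K ^ 2)) :
    C.Dom f v ∧ ‖C.Psi f v‖ ≤ K := by
  have h1 : C.Dom f v := by
    rw [dom_iff hf]
    refine ⟨(hf.norm.pow_const 2).aestronglyMeasurable, ?_⟩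
    rw [hasFiniteIntegral_iff_ofReal (Eventually.of_forall fun p => by positivity)]
    exact h.trans_lt ENNReal.ofReal_lt_top
  refine ⟨h1, ?_⟩
  rw [lintegral_sq h1, ENNReal.ofReal_le_ofReal_iff (by positivity)] at h
  exact (pow_le_pow_iff_left₀ (norm_nonneg _) hK two_ne_zero).1 h

lemma dom_iff_lintegral (hf : Measurable f) :
    C.Dom f v ↔ ∫⁻ p, ENNReal.ofReal (‖f p‖ ^ 2) ∂C.nu v < ∞ := by
  rw [dom_iff hf, ← hasFiniteIntegral_iff_ofReal (Eventually.of_forall fun p => by positivity)]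
  exact ⟨fun h => h.2, fun h => ⟨(hf.norm.pow_const 2).aestronglyMeasurable, h⟩⟩

/-- **Fatou's lemma** -/
theorem dom_of_fatou {ι : Type*} {l : Filter ι} [l.NeBot] [l.IsCountablyGenerated]
    {F : ι → X → ℂ} (hF : ∀ i, Measurable (F i)) (hf : Measurable f)
    (h : ∀ᵐ p ∂C.nu v, Tendsto (fun i => F i p) l (𝓝 (f p))) {K : ℝ}
    (hK : ∃ᶠ i in l, C.Dom (F i) v ∧ ‖C.Psi (F i) v‖ ≤ K) :
    C.Dom f v ∧ ‖C.Psi f v‖ ≤ K := by
  obtain ⟨i, hi⟩ := hK.exists
  refine dom_of_lintegral hf ((norm_nonneg _).trans hi.2) ?_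
  have h1 : ∫⁻ p, ENNReal.ofReal (‖f p‖ ^ 2) ∂C.nu v = ∫⁻ p, liminf (fun i =>
      ENNReal.ofReal (‖F i p‖ ^ 2)) l ∂C.nu v := by
    refine lintegral_congr_ae ?_
    filter_upwards [h] with p hp
    exact (Tendsto.liminf_eq ((ENNReal.continuous_ofReal.tendsto _).comp (hp.norm.pow 2))).symm
  rw [h1]
  refine (lintegral_liminf_le fun i => ((hF i).norm.pow_const 2).ennreal_ofReal).trans ?_
  refine liminf_le_of_frequently_le' (hK.mono fun i hi => ?_)
  rw [lintegral_sq hi.1]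
  exact ENNReal.ofReal_le_ofReal (pow_le_pow_left₀ (norm_nonneg _) hi.2 2)

/-- **differentiation under the calculus** -/
theorem hasDerivAt_Psi {F : ℝ → X → ℂ} {F' : X → ℂ} {t₀ : ℝ} (hF : ∀ t, Measurable (F t))
    (h0 : C.Dom (F t₀) v) (hF' : Measurable F') {G : X → ℝ} (hG : MemLp G 2 (C.nu v))
    (hb : ∀ᶠ t in 𝓝 t₀, ∀ᵐ p ∂C.nu v, ‖F t p - F t₀ p‖ ≤ G p * |t - t₀|)
    (h : ∀ᵐ p ∂C.nu v, HasDerivAt (fun t => F t p) (F' p) t₀) :
    C.Dom F' v ∧ HasDerivAt (fun t => C.Psi (F t) v) (C.Psi F' v) t₀ := by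
  have hb' : ∀ᶠ t in 𝓝[≠] (0 : ℝ), ∀ᵐ p ∂C.nu v, ‖F (t₀ + t) p - F t₀ p‖ ≤ G p * |t| := by
    have h1 : Tendsto (fun t : ℝ => t₀ + t) (𝓝[≠] 0) (𝓝 t₀) := by
      have : Tendsto (fun t : ℝ => t₀ + t) (𝓝 0) (𝓝 (t₀ + 0)) :=
        tendsto_const_nhds.add tendsto_id
      rw [add_zero] at this
      exact this.mono_left nhdsWithin_le_nhds
    simpa only [add_sub_cancel_left] using h1.eventually hb
  have hq : ∀ᶠ t in 𝓝[≠] (0 : ℝ), ∀ᵐ p ∂C.nu v,
      ‖((t⁻¹ : ℝ) : ℂ) * (F (t₀ + t) p - F t₀ p)‖ ≤ G p := by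
    filter_upwards [hb', self_mem_nhdsWithin] with t ht h0
    filter_upwards [ht] with p hp
    have : 0 < |t| := abs_pos.2 h0
    rw [norm_mul, norm_real, Real.norm_eq_abs, abs_inv, inv_mul_le_iff₀ this, mul_comm]
    exact hp
  have hl : ∀ᵐ p ∂C.nu v, Tendsto (fun t : ℝ => ((t⁻¹ : ℝ) : ℂ) * (F (t₀ + t) p - F t₀ p))
      (𝓝[≠] 0) (𝓝 (F' p)) := by
    filter_upwards [h] with p hp
    simpa only [real_smul] using hp.tendsto_slope_zero
  have hd : C.Dom F' v := by
    refine ⟨hF', hG.of_le hF'.aestronglyMeasurable ?_⟩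
    obtain ⟨u, hu⟩ := exists_seq_tendsto (𝓝[≠] (0 : ℝ))
    obtain ⟨N, hN⟩ := eventually_atTop.1 (hu.eventually hq)
    filter_upwards [hl, ae_all_iff.2 fun n => hN (n + N) (Nat.le_add_left _ _)] with p h1 h2
    refine le_trans (le_of_tendsto' ((h1.comp hu).comp (tendsto_add_atTop_nat N)).norm h2) ?_
    exact le_abs_self _
  refine ⟨hd, hasDerivAt_iff_tendsto_slope_zero.2 ?_⟩
  refine (tendsto_Psi (F := fun (t : ℝ) p => ((t⁻¹ : ℝ) : ℂ) * (F (t₀ + t) p - F t₀ p))
    (fun t => measurable_const.mul ((hF _).sub (hF _))) hd hG hq hl).congr' ?_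
  filter_upwards [hb'] with t ht
  have h1 : C.Dom (fun p => F (t₀ + t) p - F t₀ p) v :=
    ⟨(hF _).sub (hF _), (hG.mul_const |t|).of_le ((hF _).sub (hF _)).aestronglyMeasurable
      (ht.mono fun p hp => hp.trans (le_abs_self _))⟩
  have h2 : C.Dom (F (t₀ + t)) v := by simpa using h1.add h0
  rw [Psi_smul _ h1, Psi_sub h2 h0, coe_smul]

lemma norm_expI_sub (r s t : ℝ) : ‖cexp (I * (t * r : ℝ)) - cexp (I * (s * r : ℝ))‖ ≤
    |r| * |t - s| := by
  have : cexp (I * (t * r : ℝ)) - cexp (I * (s * r : ℝ)) =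
      cexp (I * (s * r : ℝ)) * (cexp (I * ((t - s) * r : ℝ)) - 1) := by
    rw [mul_sub, ← Complex.exp_add]
    push_cast
    ring_nf
  rw [this, norm_mul, norm_exp_I_mul_ofReal, one_mul]
  refine Real.norm_exp_I_mul_ofReal_sub_one_le.trans_eq ?_
  rw [Real.norm_eq_abs, abs_mul, mul_comm]

lemma hasDerivAt_expI (r t : ℝ) : HasDerivAt (fun t : ℝ => cexp (I * (t * r : ℝ)))
    (I * (cexp (I * (t * r : ℝ)) * r)) t := by
  have h1 : HasDerivAt (fun t : ℝ => I * ((t * r : ℝ) : ℂ)) (I * r) t := by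
    simpa using (((hasDerivAt_id t).mul_const r).ofReal_comp).const_mul I
  convert h1.cexp using 1
  ring

/-- the unitary group generated by a real function -/
theorem hasDerivAt_exp {r : X → ℝ} (hr : Measurable r) (hv : C.Dom (fun p => (r p : ℂ)) v)
    (t₀ : ℝ) : HasDerivAt (fun t : ℝ => C.Phi (fun p => cexp (I * (t * r p : ℝ))) v)
      (I • C.Phi (fun p => cexp (I * (t₀ * r p : ℝ))) (C.Psi (fun p => (r p : ℂ)) v)) t₀ := by
  have hb : ∀ t : ℝ, Bd fun p => cexp (I * (t * r p : ℝ)) := fun t =>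
    Bd.expI (measurable_const.mul hr)
  have h := (hasDerivAt_Psi (C := C) (v := v) (t₀ := t₀) (fun t => (hb t).1) (Dom.of_bd (hb _) v)
    (F' := fun p => I * (cexp (I * (t₀ * r p : ℝ)) * r p)) (by fun_prop) hv.2.norm
    (Eventually.of_forall fun t => Eventually.of_forall fun p => by
      rw [norm_real, Real.norm_eq_abs]; exact norm_expI_sub _ _ _)
    (Eventually.of_forall fun p => hasDerivAt_expI _ _)).2
  simp only [Psi_bd (hb _)] at h
  rwa [Psi_smul _ (hv.bd_mul (hb _)), ← Phi_Psi (hb _) hv] at h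

/-- Lipschitz vectors are in the domain of the generator -/
theorem dom_of_lip {r : X → ℝ} (hr : Measurable r) {K : ℝ}
    (h : ∃ᶠ t : ℝ in 𝓝[≠] 0, ‖C.Phi (fun p => cexp (I * (t * r p : ℝ))) v - v‖ ≤ K * |t|) :
    C.Dom (fun p => (r p : ℂ)) v ∧ ‖C.Psi (fun p => (r p : ℂ)) v‖ ≤ K := by
  have hb : ∀ t : ℝ, Bd fun p => cexp (I * (t * r p : ℝ)) - 1 := fun t =>
    (Bd.expI (measurable_const.mul hr)).sub (Bd.const 1)
  refine dom_of_fatou (l := 𝓝[≠] (0 : ℝ))
    (F := fun t p => -I * ((t⁻¹ : ℝ) : ℂ) * (cexp (I * (t * r p : ℝ)) - 1))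
    (fun t => ((hb t).smul _).1) (by fun_prop) (Eventually.of_forall fun p => ?_) ?_
  · have h1 := ((hasDerivAt_expI (r p) 0).tendsto_slope_zero).const_mul (-I)
    simp only [zero_add, zero_mul, ofReal_zero, mul_zero, Complex.exp_zero, one_mul, real_smul,
      ← mul_assoc, neg_mul, I_mul_I, neg_neg] at h1
    simpa only [neg_mul, mul_assoc] using h1
  · refine (h.and_eventually self_mem_nhdsWithin).mono fun t ⟨ht, h0⟩ => ?_
    refine ⟨Dom.of_bd ((hb t).smul _) v, ?_⟩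
    have : 0 < |t| := abs_pos.2 h0
    have hb' : Bd fun p => cexp (I * (t * r p : ℝ)) := Bd.expI (measurable_const.mul hr)
    rw [Psi_bd ((hb t).smul _), C.smul _ (hb t), C.sub hb' (Bd.const 1), C.one, smul_apply, norm_smul, norm_mul, norm_neg, norm_I, one_mul, norm_real,
      Real.norm_eq_abs, abs_inv, inv_mul_le_iff₀ this, mul_comm]
    exact ht

/-- differentiable vectors (one sided derivatives suffice) are in the domain of the generator -/
theorem dom_of_slope {r : X → ℝ} (hr : Measurable r) {l : Filter ℝ} [l.NeBot] (hl : l ≤ 𝓝[≠] 0)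
    {u : H} (h : Tendsto (fun t : ℝ => t⁻¹ • (C.Phi (fun p => cexp (I * (t * r p : ℝ))) v - v)) l
      (𝓝 u)) : C.Dom (fun p => (r p : ℂ)) v ∧ u = I • C.Psi (fun p => (r p : ℂ)) v := by
  have h1 := (dom_of_lip (C := C) (v := v) hr (K := ‖u‖ + 1) ?_).1
  · refine ⟨h1, tendsto_nhds_unique h ?_⟩
    have h2 := (hasDerivAt_exp hr h1 0).tendsto_slope_zero.mono_left hl
    simpa only [zero_add, zero_mul, ofReal_zero, mul_zero, Complex.exp_zero, C.one,
      one_apply_eq_self] using h2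
  · refine Frequently.filter_mono (Eventually.frequently ?_) hl
    filter_upwards [h.norm.eventually_le_const (lt_add_one ‖u‖), hl self_mem_nhdsWithin] with t ht h0
    have : 0 < |t| := abs_pos.2 h0
    rwa [norm_smul, Real.norm_eq_abs, abs_inv, inv_mul_le_iff₀ this, mul_comm] at ht

/-- positivity of the quadratic form gives positivity of the spectrum -/
theorem ae_nonneg_of_form {r : X → ℝ} (hr : Measurable r)
    (h : ∀ v, C.Dom (fun p => (r p : ℂ)) v →
      0 ≤ (Inner.inner ℂ v (C.Psi (fun p => (r p : ℂ)) v)).re) (v : H) :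
    ∀ᵐ p ∂C.nu v, 0 ≤ r p := by
  have key : ∀ n : ℕ, ∀ᵐ p ∂C.nu v, ¬(r p < 0 ∧ -(n : ℝ) ≤ r p) := by
    intro n
    have hA : MeasurableSet {p | r p < 0 ∧ -(n : ℝ) ≤ r p} :=
      (measurableSet_lt hr measurable_const).inter (measurableSet_le measurable_const hr)
    set A := {p | r p < 0 ∧ -(n : ℝ) ≤ r p}
    have hm : Measurable fun p => (r p : ℂ) := by fun_prop
    have e : C.nu (C.P A v) = (C.nu v).restrict A := by
      rw [P, C.nu_Phi (Bd.ind hA), ← withDensity_indicator_one hA]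
      congr 1
      funext p
      by_cases hp : p ∈ A <;> simp [hp]
    have hd : C.Dom (fun p => (r p : ℂ)) (C.P A v) := by
      refine (Dom.of_bd (Bd.const (n : ℂ)) _).of_le hm (K := 1) ?_
      rw [e]
      filter_upwards [ae_restrict_mem hA] with p hp
      rw [one_mul, norm_real, Complex.norm_natCast, Real.norm_eq_abs, abs_le]
      exact ⟨hp.2, hp.1.le.trans n.cast_nonneg⟩
    have h1 := h _ hd
    have hi : Integrable r ((C.nu v).restrict A) := by
      have := hd.integrable.re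
      rw [e] at this
      simpa using this
    rw [inner_Psi_self hd, integral_complex_ofReal, ofReal_re, e] at h1
    have h2 : ∫ p in A, -r p ∂C.nu v = 0 := by
      refine le_antisymm (by rw [integral_neg]; linarith) (setIntegral_nonneg hA fun p hp => ?_)
      linarith [hp.1]
    rw [integral_eq_zero_iff_of_nonneg_ae (f := fun p => -r p) (by
      filter_upwards [ae_restrict_mem hA] with p hp
      exact neg_nonneg.2 hp.1.le) hi.neg, EventuallyEq, ae_restrict_iff' hA] at h2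
    filter_upwards [h2] with p hp hpA
    have h3 : -r p = 0 := hp hpA
    linarith [hpA.1]
  filter_upwards [ae_all_iff.2 key] with p hp
  by_contra h0
  obtain ⟨n, hn⟩ := exists_nat_ge (-r p)
  exact hp n ⟨not_le.1 h0, by linarith⟩

lemma form_nonneg {r : X → ℝ} (hv : C.Dom (fun p => (r p : ℂ)) v) (h : ∀ᵐ p ∂C.nu v, 0 ≤ r p) :
    0 ≤ (Inner.inner ℂ v (C.Psi (fun p => (r p : ℂ)) v)).re := by
  rw [inner_Psi_self hv, integral_complex_ofReal, ofReal_re]
  exact integral_nonneg_of_ae h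

end Calc

variable {Y : Type*} [AddCommGroup Y] [Module ℝ Y] [TopologicalSpace Y] {pr : X → Y → ℝ}

namespace BC

variable {U : Y → H → H} (C : BC pr U)

lemma U_smul (hp : IsPair pr) (t : ℝ) (y : Y) (v : H) :
    U (t • y) v = C.Phi (fun p => cexp (I * (t * pr p y : ℝ))) v := by
  rw [← C.Phi_ch]
  simp only [← hp.smul]
  rfl

/-- **vectors of the domain of the generator are differentiable** -/
theorem hasDerivAt (hp : IsPair pr) {y : Y} {v : H} (hv : C.Dom (fun p => (pr p y : ℂ)) v)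
    (t₀ : ℝ) : HasDerivAt (fun t : ℝ => U (t • y) v)
      (I • U (t₀ • y) (C.Psi (fun p => (pr p y : ℂ)) v)) t₀ := by
  simp only [C.U_smul hp]
  exact Calc.hasDerivAt_exp (hp.meas y) hv t₀

include C in
lemma U_zero (hp : IsPair pr) (v : H) : U 0 v = v := by
  rw [← C.Phi_ch, funext hp.ch_zero, C.one, one_apply_eq_self]

theorem hasDerivAt_zero (hp : IsPair pr) {y : Y} {v : H} (hv : C.Dom (fun p => (pr p y : ℂ)) v) :
    HasDerivAt (fun t : ℝ => U (t • y) v) (I • C.Psi (fun p => (pr p y : ℂ)) v) 0 := by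
  simpa only [zero_smul, C.U_zero hp] using C.hasDerivAt hp hv 0

theorem dom_of_lip (hp : IsPair pr) {y : Y} {v : H} {K : ℝ}
    (h : ∃ᶠ t : ℝ in 𝓝[≠] 0, ‖U (t • y) v - v‖ ≤ K * |t|) :
    C.Dom (fun p => (pr p y : ℂ)) v ∧ ‖C.Psi (fun p => (pr p y : ℂ)) v‖ ≤ K := by
  simp only [C.U_smul hp] at h
  exact Calc.dom_of_lip (hp.meas y) h

theorem dom_of_slope (hp : IsPair pr) {y : Y} {v u : H} {l : Filter ℝ} [l.NeBot]
    (hl : l ≤ 𝓝[≠] 0) (h : Tendsto (fun t : ℝ => t⁻¹ • (U (t • y) v - v)) l (𝓝 u)) :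
    C.Dom (fun p => (pr p y : ℂ)) v ∧ u = I • C.Psi (fun p => (pr p y : ℂ)) v := by
  simp only [C.U_smul hp] at h
  exact Calc.dom_of_slope (hp.meas y) hl h

/-- **differentiable vectors are in the domain of the generator** -/
theorem dom_of_hasDerivAt (hp : IsPair pr) {y : Y} {v u : H}
    (h : HasDerivAt (fun t : ℝ => U (t • y) v) u 0) :
    C.Dom (fun p => (pr p y : ℂ)) v ∧ u = I • C.Psi (fun p => (pr p y : ℂ)) v := by
  refine C.dom_of_slope hp le_rfl ?_
  simpa only [zero_add, zero_smul, C.U_zero hp] using h.tendsto_slope_zero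

theorem hasDerivAt_iff (hp : IsPair pr) {y : Y} {v u : H} :
    HasDerivAt (fun t : ℝ => U (t • y) v) (I • u) 0 ↔
      C.Dom (fun p => (pr p y : ℂ)) v ∧ C.Psi (fun p => (pr p y : ℂ)) v = u := by
  constructor
  · intro h
    obtain ⟨h1, h2⟩ := C.dom_of_hasDerivAt hp h
    exact ⟨h1, (smul_right_injective H I_ne_zero h2).symm⟩
  · rintro ⟨h1, rfl⟩
    exact C.hasDerivAt_zero hp h1

/-- weakly differentiable vectors are in the domain of the generator -/
theorem dom_of_weak (hp : IsPair pr) {y : Y} {v u : H}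
    (h : ∀ w, C.Dom (fun p => (pr p y : ℂ)) w →
      HasDerivAt (fun t : ℝ => Inner.inner ℂ w (U (t • y) v)) (Inner.inner ℂ w (I • u)) 0) :
    C.Dom (fun p => (pr p y : ℂ)) v ∧ C.Psi (fun p => (pr p y : ℂ)) v = u := by
  refine Calc.dom_of_weak (f := fun p => (pr p y : ℂ))
    (Complex.measurable_ofReal.comp (hp.meas y)) fun w hw => ?_
  have hw' : C.Dom (fun p => (pr p (-y) : ℂ)) w := by
    simpa only [hp.neg, ofReal_neg] using hw.neg
  have h1 := (C.hasDerivAt_zero hp hw').inner ℂ (hasDerivAt_const (0 : ℝ) v)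
  have e : ∀ t : ℝ, Inner.inner ℂ (U (t • -y) w) v = Inner.inner ℂ w (U (t • y) v) := fun t => by
    rw [← C.Phi_ch, ← C.Phi_ch, C.adj (hp.bd _), smul_neg]
    simp only [hp.ch_neg, conj_conj]
  simp only [e] at h1
  have h2 := h1.unique (h w hw)
  simp only [hp.neg, ofReal_neg, Calc.Psi_neg hw, inner_zero_right, zero_add, inner_smul_left,
    inner_smul_right, conj_I, inner_neg_left, neg_mul, mul_neg, neg_neg] at h2
  simp only [conj_ofReal]
  exact mul_left_cancel₀ I_ne_zero h2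

/-- **positive generators** -/
theorem ae_nonneg (hp : IsPair pr) {y : Y}
    (h : ∀ z w : H, HasDerivAt (fun t : ℝ => U (t • y) z) (I • w) 0 → 0 ≤ (Inner.inner ℂ z w).re)
    (v : H) : ∀ᵐ p ∂C.nu v, 0 ≤ pr p y :=
  Calc.ae_nonneg_of_form (hp.meas y) (fun z hz => h z _ (C.hasDerivAt_zero hp hz)) v

/-- closed subspaces that contain the orbit of `v` contain the vectors `f(P) v` -/
theorem Phi_mem (hp : IsPair pr) {M : Submodule ℂ H} (hM : IsClosed (M : Set H)) {v : H}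
    (h : ∀ y, U y v ∈ M) {f : X → ℂ} (hf : Bd f) : C.Phi f v ∈ M := by
  have h1 : ∀ c, C.Phi (tp pr c) v ∈ M := by
    intro c
    induction c using Finsupp.induction_linear with
    | zero => rw [tp_zero, C.zero]; exact M.zero_mem
    | add c d hc hd => rw [tp_add, C.add (hp.tp_bd c) (hp.tp_bd d)]; exact M.add_mem hc hd
    | single y a =>
      rw [tp_single, C.smul a (hp.bd y), smul_apply, C.Phi_ch]
      exact M.smul_mem a (h y)
  obtain ⟨c, hc⟩ := hp.appr (hf.memLp (C.nu v) 2)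
  exact hM.mem_of_tendsto (C.tendsto_of_sq (fun n => hp.tp_bd (c n)) hf hc)
    (Eventually.of_forall fun n => h1 _)

theorem Psi_mem (hp : IsPair pr) {M : Submodule ℂ H} (hM : IsClosed (M : Set H)) {v : H}
    (h : ∀ y, U y v ∈ M) {f : X → ℂ} (hf : C.Dom f v) : C.Psi f v ∈ M :=
  hM.mem_of_tendsto (Calc.tendsto_trunc hf)
    (Eventually.of_forall fun n => C.Phi_mem hp hM h (Calc.trunc_bd hf.1 n))

/-- **core theorem**: an invariant subspace `D` of the domain of `f(P)` is dense in the graph norm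
in the part of the domain that lies in the closure of `D`. -/
theorem core (hp : IsPair pr) {D : Submodule ℂ H} (hD : ∀ y, ∀ v ∈ D, U y v ∈ D) {f : X → ℂ}
    (hf : ∀ v ∈ D, C.Dom f v) {v : H} (hv : C.Dom f v) (hc : v ∈ closure (D : Set H)) :
    ∃ u : ℕ → H, (∀ n, u n ∈ D) ∧ Tendsto u atTop (𝓝 v) ∧
      Tendsto (fun n => C.Psi f (u n)) atTop (𝓝 (C.Psi f v)) := by
  have hm := hv.1
  let g : X → ℂ := fun p => 1 + (‖f p‖ : ℝ)
  have hgm : Measurable g := by fun_prop
  have hgn : ∀ p, ‖g p‖ = 1 + ‖f p‖ := fun p => by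
    rw [show g p = ((1 + ‖f p‖ : ℝ) : ℂ) by simp [g], norm_real, Real.norm_of_nonneg (by positivity)]
  have hg0 : ∀ p, g p ≠ 0 := fun p => by
    rw [← norm_ne_zero_iff, hgn]; positivity
  have hg : ∀ w, C.Dom f w → C.Dom g w := fun w hw =>
    (Calc.Dom.of_bd (Bd.const 1) w).add (hw.of_le (by fun_prop) (K := 1)
      (Eventually.of_forall fun p => by simp))
  have b1 : Bd fun p => (g p)⁻¹ := ⟨hgm.inv, 1, fun p => by
    rw [norm_inv, hgn]; exact inv_le_one_of_one_le₀ (by linarith [norm_nonneg (f p)])⟩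
  have b2 : Bd fun p => f p * (g p)⁻¹ := ⟨hm.mul hgm.inv, 1, fun p => by
    rw [norm_mul, norm_inv, hgn, mul_inv_le_iff₀ (by positivity)]; linarith⟩
  have e1 : ∀ w, C.Dom f w → C.Phi (fun p => (g p)⁻¹) (C.Psi g w) = w := fun w hw => by
    rw [Calc.Phi_Psi b1 (hg w hw)]
    simp only [inv_mul_cancel₀ (hg0 _)]
    rw [Calc.Psi_bd (Bd.const 1), C.one, one_apply_eq_self]
  have e2 : ∀ w, C.Dom f w → C.Phi (fun p => f p * (g p)⁻¹) (C.Psi g w) = C.Psi f w :=
    fun w hw => by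
    rw [Calc.Phi_Psi b2 (hg w hw)]
    simp only [mul_assoc, inv_mul_cancel₀ (hg0 _), mul_one]
  let T : Submodule ℂ H :=
    { carrier := {z | ∃ w ∈ D, C.Psi g w = z}
      add_mem' := by
        rintro _ _ ⟨a, ha, rfl⟩ ⟨b, hb, rfl⟩
        exact ⟨a + b, D.add_mem ha hb, Calc.Psi_add_vec (hg a (hf a ha)) (hg b (hf b hb))⟩
      zero_mem' := ⟨0, D.zero_mem, Calc.Psi_zero_vec hgm⟩
      smul_mem' := by
        rintro c _ ⟨a, ha, rfl⟩
        exact ⟨c • a, D.smul_mem c ha, Calc.Psi_smul_vec c (hg a (hf a ha))⟩ }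
  have hT : ∀ w ∈ D, ∀ {h}, Bd h → C.Phi h (C.Psi g w) ∈ T.topologicalClosure := by
    intro w hw h hh
    refine C.Phi_mem hp T.isClosed_topologicalClosure (fun y => T.le_topologicalClosure ?_) hh
    exact ⟨U y w, hD y w hw, C.Psi_U hp y (hg w (hf w hw))⟩
  have h1 : ∀ n, C.Phi (Calc.trunc g n) v ∈ T.topologicalClosure := by
    intro n
    refine closure_minimal (s := D) (t := {z | C.Phi (Calc.trunc g n) z ∈ T.topologicalClosure})
      (fun w hw => ?_) (T.isClosed_topologicalClosure.preimage (C.Phi _).continuous) hc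
    have := hT w hw ((Calc.trunc_bd hgm n).mul b1)
    rwa [C.mul_apply (Calc.trunc_bd hgm n) b1, e1 w (hf w hw)] at this
  have h2 : C.Psi g v ∈ closure (T : Set H) :=
    T.isClosed_topologicalClosure.mem_of_tendsto (Calc.tendsto_trunc (hg v hv))
      (Eventually.of_forall h1)
  obtain ⟨x, hx, hl⟩ := mem_closure_iff_seq_limit.1 h2
  choose u hu hx using hx
  refine ⟨u, hu, ?_, ?_⟩
  · have := ((C.Phi fun p => (g p)⁻¹).continuous.tendsto _).comp hl
    rw [e1 v hv] at this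
    refine this.congr fun n => ?_
    rw [Function.comp_apply, ← hx, e1 _ (hf _ (hu n))]
  · have := ((C.Phi fun p => f p * (g p)⁻¹).continuous.tendsto _).comp hl
    rw [e2 v hv] at this
    refine this.congr fun n => ?_
    rw [Function.comp_apply, ← hx, e2 _ (hf _ (hu n))]

end BC

/-! ### One parameter groups -/

/-- the pairing of the one parameter groups -/
abbrev pm (p t : ℝ) : ℝ := p * t

namespace BC

variable {U : ℝ → H → H} (C : BC pm U)

theorem hasDerivAt₁ {v : H} (hv : C.Dom (fun p => (p : ℂ)) v) (t₀ : ℝ) :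
    HasDerivAt (fun t : ℝ => U t v) (I • U t₀ (C.Psi (fun p => (p : ℂ)) v)) t₀ := by
  simpa only [smul_eq_mul, mul_one] using
    C.hasDerivAt isPair_mul (y := 1) (v := v) (by simpa only [mul_one] using hv) t₀

theorem hasDerivAt_iff₁ {v u : H} : HasDerivAt (fun t : ℝ => U t v) (I • u) 0 ↔
    C.Dom (fun p => (p : ℂ)) v ∧ C.Psi (fun p => (p : ℂ)) v = u := by
  simpa only [smul_eq_mul, mul_one] using C.hasDerivAt_iff isPair_mul (y := 1) (v := v) (u := u)

theorem dom_of_hasDerivAt₁ {v u : H} (h : HasDerivAt (fun t : ℝ => U t v) u 0) :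
    C.Dom (fun p => (p : ℂ)) v ∧ u = I • C.Psi (fun p => (p : ℂ)) v := by
  simpa only [smul_eq_mul, mul_one] using C.dom_of_hasDerivAt isPair_mul (y := 1) (v := v) (u := u)
    (by simpa only [smul_eq_mul, mul_one] using h)

theorem dom_of_lip₁ {v : H} {K : ℝ} (h : ∃ᶠ t : ℝ in 𝓝[≠] 0, ‖U t v - v‖ ≤ K * |t|) :
    C.Dom (fun p => (p : ℂ)) v ∧ ‖C.Psi (fun p => (p : ℂ)) v‖ ≤ K := by
  simpa only [smul_eq_mul, mul_one] using C.dom_of_lip isPair_mul (y := 1) (v := v) (K := K)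
    (by simpa only [smul_eq_mul, mul_one] using h)

theorem ae_nonneg₁
    (h : ∀ z w : H, HasDerivAt (fun t : ℝ => U t z) (I • w) 0 → 0 ≤ (Inner.inner ℂ z w).re)
    (v : H) : ∀ᵐ p ∂C.nu v, 0 ≤ p := by
  simpa only [mul_one] using C.ae_nonneg isPair_mul (y := 1)
    (by simpa only [smul_eq_mul, mul_one] using h) v

end BC

end Vale.Agent.P352X.SN

end
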