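import Vale.Agent.P352X.SN.Tool

/-!
# P352X, block SN: construction of representations
-/

noncomputable section

open Filter Topology

namespace Vale.Agent.P352X.SN

variable {H : Type*} [NormedAddCommGroup H] [InnerProductSpace ℂ H]

lemma norm_of_inn {T : H → H} (h : ∀ v w, inner ℂ (T v) (T w) = inner ℂ v w) (v w : H) :
    ‖T v - T w‖ = ‖v - w‖ := by
  refine (pow_left_inj₀ (norm_nonneg _) (norm_nonneg _) two_ne_zero).1 ?_
  rw [@norm_sub_sq ℂ, @norm_sub_sq ℂ, h, ← @inner_self_eq_norm_sq ℂ, ← @inner_self_eq_norm_sq ℂ,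
    h, h, @inner_self_eq_norm_sq ℂ, @inner_self_eq_norm_sq ℂ]

/-- a representation of a finite dimensional space is continuous if it is continuous on lines -/
theorem URep.of_lines {Y : Type*} [NormedAddCommGroup Y] [NormedSpace ℝ Y]
    [FiniteDimensional ℝ Y] {U : Y → H → H} (zero : ∀ v, U 0 v = v)
    (add : ∀ x y v, U (x + y) v = U x (U y v))
    (inn : ∀ x v w, inner ℂ (U x v) (U x w) = inner ℂ v w)
    (cont : ∀ y v, Tendsto (fun t : ℝ => U (t • y) v) (𝓝 0) (𝓝 v)) : URep U := by
  refine ⟨zero, add, inn, fun v => ?_⟩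
  have hn := fun x => norm_of_inn (inn x)
  let b := Module.finBasis ℝ Y
  have h1 : ∀ (s : Finset (Fin (Module.finrank ℝ Y))) (c : Fin (Module.finrank ℝ Y) → Y),
      ‖U (∑ i ∈ s, c i) v - v‖ ≤ ∑ i ∈ s, ‖U (c i) v - v‖ := by
    intro s c
    induction s using Finset.induction_on with
    | empty => simp [zero]
    | insert i s hi ih =>
      rw [Finset.sum_insert hi, Finset.sum_insert hi, add]
      refine (norm_sub_le_norm_sub_add_norm_sub _ (U (c i) v) _).trans ?_
      rw [hn, add_comm]
      exact add_le_add_right ih _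
  have h2 : Tendsto (fun y => ‖U y v - v‖) (𝓝 0) (𝓝 0) := by
    refine squeeze_zero (g := fun y => ∑ i, ‖U (b.repr y i • b i) v - v‖) (fun _ => norm_nonneg _)
      (fun y => ?_) ?_
    · simpa only [b.sum_repr] using h1 Finset.univ fun i => b.repr y i • b i
    · have : ∀ i, Tendsto (fun y => ‖U (b.repr y i • b i) v - v‖) (𝓝 0) (𝓝 0) := fun i => by
        have h3 := (b.coord i).continuous_of_finiteDimensional.tendsto 0
        rw [map_zero] at h3
        exact tendsto_iff_norm_sub_tendsto_zero.1 ((cont (b i) v).comp h3)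
      simpa using tendsto_finsetSum Finset.univ fun i _ => this i
  refine continuous_iff_continuousAt.2 fun x => tendsto_iff_norm_sub_tendsto_zero.2 ?_
  have h3 : Tendsto (fun y => -x + y) (𝓝 x) (𝓝 0) := by
    simpa using (tendsto_const_nhds (x := -x)).add (tendsto_id (x := 𝓝 x))
  refine (h2.comp h3).congr fun y => ?_
  rw [Function.comp_apply, ← hn x, ← add, add_neg_cancel_left]

/-- commuting representations -/
theorem URep.prod {Y Y' : Type*} [AddCommGroup Y] [TopologicalSpace Y] [AddCommGroup Y']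
    [TopologicalSpace Y'] {U : Y → H → H} {U' : Y' → H → H} (h : URep U) (h' : URep U')
    (hc : ∀ x y v, U x (U' y v) = U' y (U x v)) : URep fun (y : Y × Y') v => U y.1 (U' y.2 v) := by
  refine ⟨fun v => by rw [Prod.fst_zero, Prod.snd_zero, h'.zero, h.zero], fun x y v => ?_,
    fun x v w => by rw [h.inn, h'.inn], fun v => ?_⟩
  · rw [Prod.fst_add, Prod.snd_add, h.add, h'.add, hc y.1 x.2]
  · refine continuous_iff_continuousAt.2 fun x => tendsto_iff_norm_sub_tendsto_zero.2 ?_
    have h1 := tendsto_iff_norm_sub_tendsto_zero.1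
      (((h'.cont v).comp continuous_snd).tendsto x)
    have h2 := tendsto_iff_norm_sub_tendsto_zero.1
      (((h.cont (U' x.2 v)).comp continuous_fst).tendsto x)
    refine squeeze_zero (fun _ => norm_nonneg _) (fun y => ?_) (by simpa using h1.add h2)
    refine (norm_sub_le_norm_sub_add_norm_sub _ (U y.1 (U' x.2 v)) _).trans ?_
    rw [norm_of_inn (h.inn y.1)]

/-- pull back along continuous homomorphisms -/
theorem URep.comp {Y Y' : Type*} [AddCommGroup Y] [TopologicalSpace Y] [AddCommGroup Y']
    [TopologicalSpace Y'] {U : Y → H → H} (h : URep U) {A : Y' → Y}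
    (hA : ∀ x y, A (x + y) = A x + A y) (hc : Continuous A) : URep fun y => U (A y) := by
  have h0 : A 0 = 0 := by simpa using hA 0 0
  exact ⟨fun v => by rw [h0, h.zero], fun x y v => by rw [hA, h.add], fun x => h.inn _,
    fun v => (h.cont v).comp hc⟩

/-- conjugation by a unitary or antiunitary pair of maps -/
theorem URep.conj {H' Y : Type*} [NormedAddCommGroup H'] [InnerProductSpace ℂ H']
    [AddCommGroup Y] [TopologicalSpace Y] {U : Y → H → H} (h : URep U) {W : H → H'} {W' : H' → H}
    (h1 : ∀ v, W (W' v) = v) (h2 : ∀ v, W' (W v) = v) (hc : Continuous W)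
    (hi : (∀ v w, inner ℂ (W v) (W w) = inner ℂ v w) ∨ ∀ v w, inner ℂ (W v) (W w) = inner ℂ w v) :
    URep fun y v => W (U y (W' v)) := by
  refine ⟨fun v => by rw [h.zero, h1], fun x y v => by rw [h.add, h2], fun x v w => ?_,
    fun v => hc.comp (h.cont _)⟩
  rcases hi with hi | hi <;> rw [hi, h.inn, ← hi, h1, h1]

lemma URep.neg_left {Y : Type*} [AddCommGroup Y] [TopologicalSpace Y] {U : Y → H → H}
    (h : URep U) (x : Y) (v : H) : U (-x) (U x v) = v := by
  rw [← h.add, neg_add_cancel, h.zero]

lemma URep.neg_right {Y : Type*} [AddCommGroup Y] [TopologicalSpace Y] {U : Y → H → H}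
    (h : URep U) (x : Y) (v : H) : U x (U (-x) v) = v := by
  rw [← h.add, add_neg_cancel, h.zero]

lemma URep.comm {Y : Type*} [AddCommGroup Y] [TopologicalSpace Y] {U : Y → H → H}
    (h : URep U) (x y : Y) (v : H) : U x (U y v) = U y (U x v) := by
  rw [← h.add, add_comm, h.add]

lemma URep.map_sub {Y : Type*} [AddCommGroup Y] [TopologicalSpace Y] {U : Y → H → H}
    (h : URep U) (x : Y) (v w : H) : U x (v - w) = U x v - U x w := (h.op x).map_sub v w

end Vale.Agent.P352X.SN

end
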