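import Vale.Agent.P352.MathlibUsed
import Mathlib.Analysis.Fourier.Inversion
import Mathlib.MeasureTheory.Measure.LevyConvergence
import Mathlib.MeasureTheory.Function.L2Space

/-!
# P352X, block SN: the theorem of Bochner for unitary representations of Euclidean spaces
-/

noncomputable section

open MeasureTheory Filter Topology Complex Module
open scoped FourierTransform RealInnerProductSpace ENNReal ComplexConjugate

namespace Vale.Agent.P352X.SN

variable {E : Type*} [NormedAddCommGroup E] [InnerProductSpace ℝ E] [MeasurableSpace E]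
  [BorelSpace E] [FiniteDimensional ℝ E]

/-- a continuous integrable function with a nonnegative Fourier transform has an integrable
Fourier transform -/
theorem integrable_fourier_of_nonneg {f : E → ℂ} (hc : Continuous f) (hf : Integrable f)
    {r : E → ℝ} (hr : ∀ p, 0 ≤ r p) (he : ∀ p, 𝓕 f p = r p) : Integrable (𝓕 f) := by
  have hcF : Continuous (𝓕 f) :=
    VectorFourier.fourierIntegral_continuous Real.continuous_fourierChar
      (L := innerₗ E) continuous_inner hf
  have hrc : Continuous r := by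
    have : r = fun p => (𝓕 f p).re := by funext p; rw [he, ofReal_re]
    rw [this]
    exact continuous_re.comp hcF
  have hrb : ∀ p, r p ≤ ∫ x, ‖f x‖ := by
    intro p
    have h1 : ‖𝓕 f p‖ ≤ ∫ x, ‖f x‖ :=
      VectorFourier.norm_fourierIntegral_le_integral_norm _ _ _ _ _
    rw [he, norm_real, Real.norm_of_nonneg (hr p)] at h1
    exact h1
  have hg : ∀ c : ℝ, 0 < c → Integrable fun w : E => Real.exp (-c⁻¹ * ‖w‖ ^ 2) := by
    intro c hc0
    have J : Integrable (fun w : E => cexp (-(c⁻¹ : ℝ) * ‖w‖ ^ 2 + 0 * ⟪(0 : E), w⟫)) :=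
      GaussianFourier.integrable_cexp_neg_mul_sq_norm_add (by simpa) _ _
    refine J.norm.congr (Eventually.of_forall fun w => ?_)
    simp only [zero_mul, add_zero]
    rw [norm_exp]
    congr 1
    norm_cast
  -- the regularized integrals converge
  have hlim : Tendsto (fun c : ℝ => ∫ w : E, Real.exp (-c⁻¹ * ‖w‖ ^ 2) * r w) atTop
      (𝓝 (f 0).re) := by
    have h1 := Real.tendsto_integral_gaussian_smul' hf (v := 0) hc.continuousAt
    have h2 := (continuous_re.tendsto _).comp h1
    refine h2.congr' ?_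
    filter_upwards [Ioi_mem_atTop 0] with c (hc0 : 0 < c)
    have J : Integrable (fun w : E =>
        cexp (-c⁻¹ * ‖w‖ ^ 2 + 2 * Real.pi * I * ⟪(0 : E), w⟫)) :=
      GaussianFourier.integrable_cexp_neg_mul_sq_norm_add (by simpa) _ _
    have e1 : ∫ w : E, 𝓕 (fun w : E =>
        cexp (-c⁻¹ * ‖w‖ ^ 2 + 2 * Real.pi * I * ⟪(0 : E), w⟫)) w • f w =
        ∫ w : E, cexp (-c⁻¹ * ‖w‖ ^ 2 + 2 * Real.pi * I * ⟪(0 : E), w⟫) • 𝓕 f w := by
      simpa using! (VectorFourier.integral_fourierIntegral_smul_eq_flip (L := innerₗ E)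
        Real.continuous_fourierChar continuous_inner J hf)
    have e2 : ∫ w : E, ((Real.pi * c : ℂ) ^ (finrank ℝ E / 2 : ℂ) *
        cexp (-Real.pi ^ 2 * c * ‖(0 : E) - w‖ ^ 2)) • f w = ∫ w : E, 𝓕 (fun w : E =>
        cexp (-c⁻¹ * ‖w‖ ^ 2 + 2 * Real.pi * I * ⟪(0 : E), w⟫)) w • f w := by
      congr with w
      rw [fourier_gaussian_innerProductSpace' (by simpa)]
      congr 3
      · simp
      · simp only [zero_sub, norm_neg, ofReal_inv, div_inv_eq_mul]
        ring
    show (∫ w : E, ((Real.pi * c : ℂ) ^ (finrank ℝ E / 2 : ℂ) *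
        cexp (-Real.pi ^ 2 * c * ‖(0 : E) - w‖ ^ 2)) • f w).re = _
    rw [e2, e1]
    have e3 : (fun w : E => cexp (-c⁻¹ * ‖w‖ ^ 2 + 2 * Real.pi * I * ⟪(0 : E), w⟫) • 𝓕 f w) =
        fun w : E => ((Real.exp (-c⁻¹ * ‖w‖ ^ 2) * r w : ℝ) : ℂ) := by
      funext w
      rw [he, inner_zero_left]
      push_cast
      simp
    rw [e3, integral_complex_ofReal, ofReal_re]
  have hint : Integrable r := by
    refine ⟨hrc.aestronglyMeasurable, ?_⟩
    rw [hasFiniteIntegral_iff_ofReal (Eventually.of_forall hr)]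
    have h1 : ∫⁻ w, ENNReal.ofReal (r w) = ∫⁻ w, liminf (fun c : ℝ =>
        ENNReal.ofReal (Real.exp (-c⁻¹ * ‖w‖ ^ 2) * r w)) atTop := by
      refine lintegral_congr fun w => ?_
      refine (Tendsto.liminf_eq ?_).symm
      refine (ENNReal.continuous_ofReal.tendsto _).comp ?_
      have h2 : Tendsto (fun c : ℝ => Real.exp (-c⁻¹ * ‖w‖ ^ 2)) atTop (𝓝 1) := by
        have h3 : Tendsto (fun c : ℝ => -c⁻¹ * ‖w‖ ^ 2) atTop (𝓝 (-0 * ‖w‖ ^ 2)) :=
          tendsto_inv_atTop_zero.neg.mul_const _
        rw [neg_zero, zero_mul] at h3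
        have h4 := (Real.continuous_exp.tendsto 0).comp h3
        rwa [Real.exp_zero] at h4
      simpa using h2.mul_const (r w)
    rw [h1]
    refine (lintegral_liminf_le fun c => ?_).trans_lt ?_
    · exact (ENNReal.continuous_ofReal.comp (by fun_prop)).measurable
    · have h2 : Tendsto (fun c : ℝ => ∫⁻ w : E,
          ENNReal.ofReal (Real.exp (-c⁻¹ * ‖w‖ ^ 2) * r w)) atTop
          (𝓝 (ENNReal.ofReal (f 0).re)) := by
        refine ((ENNReal.continuous_ofReal.tendsto _).comp hlim).congr' ?_
        filter_upwards [Ioi_mem_atTop 0] with c (hc0 : 0 < c)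
        refine ofReal_integral_eq_lintegral_ofReal ?_
          (Eventually.of_forall fun w => mul_nonneg (Real.exp_pos _).le (hr w))
        refine (hg c hc0).mul_bdd (c := ∫ x, ‖f x‖) hrc.aestronglyMeasurable
          (Eventually.of_forall fun w => ?_)
        rw [Real.norm_of_nonneg (hr w)]
        exact hrb w
      rw [h2.liminf_eq]
      exact ENNReal.ofReal_lt_top
  have : 𝓕 f = fun p => (r p : ℂ) := funext he
  rw [this]
  exact hint.ofReal

/-- the measure with a given continuous integrable characteristic function -/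
theorem exists_meas_of_nonneg {f : E → ℂ} (hc : Continuous f) (hf : Integrable f)
    {r : E → ℝ} (hr : ∀ p, 0 ≤ r p) (he : ∀ p, 𝓕 f p = r p) :
    ∃ μ : Measure E, IsFiniteMeasure μ ∧ ∀ y, charFun μ y = f y := by
  have hF := integrable_fourier_of_nonneg hc hf hr he
  have hF' : 𝓕 f = fun p => (r p : ℂ) := funext he
  have hri : Integrable r := by
    have := hF.re
    simpa [hF'] using this
  have hrm : Measurable r := by
    have hcF : Continuous (𝓕 f) :=
      VectorFourier.fourierIntegral_continuous Real.continuous_fourierChar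
        (L := innerₗ E) continuous_inner hf
    have : r = fun p => (𝓕 f p).re := by funext p; rw [he, ofReal_re]
    rw [this]
    exact (continuous_re.comp hcF).measurable
  let ν : Measure E := volume.withDensity fun p => ((r p).toNNReal : ℝ≥0∞)
  have hν : IsFiniteMeasure ν := isFiniteMeasure_withDensity_ofReal hri.2
  refine ⟨ν.map fun p => (2 * Real.pi) • p, inferInstance, fun y => ?_⟩
  rw [charFun_map_smul, charFun_apply, integral_withDensity_eq_integral_smul hrm.real_toNNReal,
    ← congrFun (hc.fourierInv_fourier_eq hf hF) y, Real.fourierInv_eq', hF']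
  refine integral_congr_ae (Eventually.of_forall fun p => ?_)
  simp only [NNReal.smul_def, Real.coe_toNNReal _ (hr p), real_inner_smul_right, smul_eq_mul,
    real_smul]
  ring

/-- limits of characteristic functions -/
theorem exists_meas_of_lim {μ : ℕ → Measure E} [∀ n, IsProbabilityMeasure (μ n)] {f : E → ℂ}
    (hf : ContinuousAt f 0) (h : ∀ t, Tendsto (fun n => charFun (μ n) t) atTop (𝓝 (f t))) :
    ∃ ν : Measure E, IsProbabilityMeasure ν ∧ ∀ t, charFun ν t = f t := by
  have ht := isTightMeasureSet_of_tendsto_charFun hf h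
  let P : ℕ → ProbabilityMeasure E := fun n => ⟨μ n, inferInstance⟩
  have hc : IsCompact (closure {P n | n}) := by
    refine isCompact_closure_of_isTightMeasureSet ?_
    convert ht using 1
    ext x
    constructor
    · rintro ⟨_, ⟨n, rfl⟩, rfl⟩
      exact ⟨n, rfl⟩
    · rintro ⟨n, rfl⟩
      exact ⟨P n, ⟨n, rfl⟩, rfl⟩
  obtain ⟨ν, -, hν : Tendsto _ _ _⟩ := hc.ultrafilter_le_nhds ((hyperfilter ℕ).map P)
    (.trans (by simp) (monotone_principal subset_closure))
  refine ⟨ν, inferInstance, fun t => ?_⟩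
  rw [ProbabilityMeasure.tendsto_iff_forall_integral_rclike_tendsto ℂ] at hν
  have h1 := hν (BoundedContinuousFunction.innerProbChar t)
  simp_rw [← charFun_eq_integral_innerProbChar] at h1
  have h2 : (hyperfilter ℕ : Filter ℕ) ≤ atTop := by
    rw [← Nat.cofinite_eq_atTop]
    exact hyperfilter_le_cofinite
  exact tendsto_nhds_unique h1 ((h t).mono_left h2)

variable {H : Type*} [NormedAddCommGroup H] [InnerProductSpace ℂ H]

/-- A strongly continuous unitary representation of the additive group `Y`. -/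
structure URep {Y : Type*} [AddCommGroup Y] [TopologicalSpace Y] (U : Y → H → H) : Prop where
  zero : ∀ v, U 0 v = v
  add : ∀ x y v, U (x + y) v = U x (U y v)
  inn : ∀ x v w, inner ℂ (U x v) (U x w) = inner ℂ v w
  cont : ∀ v, Continuous fun x => U x v

section rep

variable {Y : Type*} [AddCommGroup Y] [TopologicalSpace Y] {U : Y → H → H}

lemma URep.norm (h : URep U) (x : Y) (v : H) : ‖U x v‖ = ‖v‖ := by
  have h1 := h.inn x v v
  rw [inner_self_eq_norm_sq_to_K, inner_self_eq_norm_sq_to_K] at h1
  have h2 : ‖U x v‖ ^ 2 = ‖v‖ ^ 2 := by exact_mod_cast h1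
  exact (pow_left_inj₀ (norm_nonneg _) (norm_nonneg _) two_ne_zero).1 h2

lemma URep.adj (h : URep U) (x : Y) (v w : H) : inner ℂ (U x v) w = inner ℂ v (U (-x) w) := by
  rw [← h.inn x v, ← h.add, add_neg_cancel, h.zero]

lemma URep.inn' (h : URep U) (x y : Y) (v w : H) :
    inner ℂ (U x v) (U y w) = inner ℂ v (U (y - x) w) := by
  rw [h.adj, ← h.add, sub_eq_neg_add]

lemma URep.map_add (h : URep U) (x : Y) (v w : H) : U x (v + w) = U x v + U x w := by
  refine ext_inner_right ℂ fun z => ?_
  rw [inner_add_left, h.adj, h.adj, h.adj, inner_add_left]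

lemma URep.map_smul (h : URep U) (x : Y) (c : ℂ) (v : H) : U x (c • v) = c • U x v := by
  refine ext_inner_right ℂ fun z => ?_
  rw [inner_smul_left, h.adj, h.adj, inner_smul_left]

/-- the unitary operators as bounded operators -/
def URep.op (h : URep U) (x : Y) : H →L[ℂ] H :=
  LinearMap.mkContinuous ⟨⟨U x, h.map_add x⟩, h.map_smul x⟩ 1 fun v => by
    simp [h.norm]

@[simp] lemma URep.op_apply (h : URep U) (x : Y) (v : H) : h.op x v = U x v := rfl

end rep

variable [CompleteSpace H] {U : E → H → H}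

lemma gauss_int {c : ℝ} (hc : 0 < c) : Integrable fun w : E => Real.exp (-c * ‖w‖ ^ 2) := by
  have J : Integrable (fun w : E => cexp (-(c : ℝ) * ‖w‖ ^ 2 + 0 * ⟪(0 : E), w⟫)) :=
    GaussianFourier.integrable_cexp_neg_mul_sq_norm_add (by simpa) _ _
  refine J.norm.congr (Eventually.of_forall fun w => ?_)
  simp only [zero_mul, add_zero]
  rw [norm_exp]
  congr 1
  norm_cast

/-- positivity of the Gaussian averages -/
lemma gauss_pos (h : URep U) (v : H) {c : ℝ} (hc : 0 < c) :
    ∃ r : ℝ, 0 ≤ r ∧ ∫ y : E, (Real.exp (-c * ‖y‖ ^ 2) : ℂ) * inner ℂ v (U y v) = r := by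
  let g : E → ℝ := fun x => Real.exp (-(2 * c) * ‖x‖ ^ 2)
  have hg : Integrable g := gauss_int (by positivity)
  have hgc : Continuous g := by fun_prop
  have hg0 : ∀ x, 0 < g x := fun x => Real.exp_pos _
  have hA : Integrable fun x => (g x : ℂ) • U x v := by
    refine Integrable.mono' (hg.mul_const ‖v‖) ?_ (Eventually.of_forall fun x => ?_)
    · exact ((continuous_ofReal.comp hgc).smul (h.cont v)).aestronglyMeasurable
    · rw [norm_smul, h.norm, norm_real, Real.norm_of_nonneg (hg0 x).le]
  let φ : E → ℂ := fun y => inner ℂ v (U y v)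
  have hφc : Continuous φ := continuous_const.inner (h.cont v)
  have hφb : ∀ y, ‖φ y‖ ≤ ‖v‖ * ‖v‖ := fun y =>
    (norm_inner_le_norm _ _).trans (by rw [h.norm])
  set A : H := ∫ x, (g x : ℂ) • U x v with hAdef
  have e1 : ∀ x, inner ℂ ((g x : ℂ) • U x v) A = ∫ y, (g x * g (x + y) : ℝ) * φ y := by
    intro x
    rw [hAdef, ← integral_inner hA, ← integral_add_left_eq_self _ x]
    refine integral_congr_ae (Eventually.of_forall fun y => ?_)
    simp only [inner_smul_left, inner_smul_right, conj_ofReal, h.inn', add_sub_cancel_left, φ]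
    push_cast
    ring
  have e2 : inner ℂ A A = ∫ x, ∫ y, (g x * g (x + y) : ℝ) * φ y := by
    have e3 : inner ℂ A A = conj (inner ℂ A A) := (inner_conj_symm A A).symm
    rw [e3]
    conv_lhs => rw [hAdef, ← integral_inner hA, ← integral_conj]
    refine integral_congr_ae (Eventually.of_forall fun x => ?_)
    simp only
    rw [inner_conj_symm, ← hAdef, e1]
  have hI : Integrable (fun z : E × E => ((g z.1 * g (z.1 + z.2) : ℝ) : ℂ) * φ z.2)
      (volume.prod volume) := by
    have h1 : Integrable (fun z : E × E => g z.1 * g z.2) (volume.prod volume) := hg.mul_prod hg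
    have h2 : Integrable (fun z : E × E => g z.1 * g (z.1 + z.2)) (volume.prod volume) :=
      (measurePreserving_prod_add volume volume).integrable_comp_of_integrable h1
    exact h2.ofReal.mul_bdd (c := ‖v‖ * ‖v‖) (hφc.comp continuous_snd).aestronglyMeasurable
      (Eventually.of_forall fun z => hφb z.2)
  set K : ℝ := ∫ x : E, Real.exp (-(4 * c) * ‖x‖ ^ 2) with hK
  have hK0 : 0 < K := by
    rw [hK, GaussianFourier.integral_rexp_neg_mul_sq_norm (by positivity)]
    have := Real.pi_pos
    positivity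
  have e4 : ∀ y : E, ∫ x, g x * g (x + y) = K * Real.exp (-c * ‖y‖ ^ 2) := by
    intro y
    rw [hK, ← integral_mul_const, ← integral_add_right_eq_self _ (-((1 / 2 : ℝ) • y))]
    refine integral_congr_ae (Eventually.of_forall fun x => ?_)
    simp only [g]
    rw [← Real.exp_add, ← Real.exp_add]
    congr 1
    have p1 : x + -((1 / 2 : ℝ) • y) + y = x + (1 / 2 : ℝ) • y := by module
    have p2 := parallelogram_law_with_norm ℝ x ((1 / 2 : ℝ) • y)
    rw [p1, ← sub_eq_add_neg]
    rw [norm_smul, Real.norm_of_nonneg (by norm_num)] at p2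
    nlinarith
  have e5 : inner ℂ A A = K * ∫ y : E, (Real.exp (-c * ‖y‖ ^ 2) : ℂ) * φ y := by
    rw [e2, integral_integral_swap hI, ← integral_const_mul]
    refine integral_congr_ae (Eventually.of_forall fun y => ?_)
    simp only
    rw [integral_mul_const, integral_complex_ofReal, e4]
    push_cast
    ring
  refine ⟨‖A‖ ^ 2 / K, by positivity, ?_⟩
  rw [inner_self_eq_norm_sq_to_K] at e5
  have hK1 : (K : ℂ) ≠ 0 := by exact_mod_cast hK0.ne'
  rw [ofReal_div, eq_div_iff hK1, mul_comm, ofReal_pow]
  exact e5.symm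

/-- **Bochner's theorem** for unitary representations. -/
theorem bochner (h : URep U) (v : H) :
    ∃ ν : Measure E, IsFiniteMeasure ν ∧ ∀ y, charFun ν y = inner ℂ v (U y v) := by
  have key : ∀ v : H, ‖v‖ = 1 →
      ∃ ν : Measure E, IsFiniteMeasure ν ∧ ∀ y, charFun ν y = inner ℂ v (U y v) := by
    intro v hv
    let φ : E → ℂ := fun y => inner ℂ v (U y v)
    have hφc : Continuous φ := continuous_const.inner (h.cont v)
    have hφb : ∀ y, ‖φ y‖ ≤ ‖v‖ * ‖v‖ := fun y =>
      (norm_inner_le_norm _ _).trans (by rw [h.norm])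
    have hφ0 : φ 0 = 1 := by
      simp only [φ, h.zero, inner_self_eq_norm_sq_to_K, hv]
      simp
    have h1 : ∀ n : ℕ, ∃ μ : Measure E, IsFiniteMeasure μ ∧
        ∀ y, charFun μ y = (Real.exp (-(1 / ((n : ℝ) + 1)) * ‖y‖ ^ 2) : ℂ) * φ y := by
      intro n
      have hc : (0 : ℝ) < 1 / ((n : ℝ) + 1) := by positivity
      have h2 : ∀ p : E, ∃ r : ℝ, 0 ≤ r ∧
          𝓕 (fun y : E => (Real.exp (-(1 / ((n : ℝ) + 1)) * ‖y‖ ^ 2) : ℂ) * φ y) p = r := by
        intro p
        have h3 : URep fun (y : E) (w : H) =>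
            cexp ((-2 * Real.pi * ⟪y, p⟫ : ℝ) * I) • U y w := by
          refine ⟨fun w => by simp [h.zero], fun x y w => ?_, fun x w w' => ?_, fun w => ?_⟩
          · rw [h.map_smul, smul_smul, ← Complex.exp_add, h.add, inner_add_left]
            congr 2
            push_cast
            ring
          · rw [inner_smul_left, inner_smul_right, h.inn, ← mul_assoc, ← exp_conj,
              ← Complex.exp_add, map_mul, conj_ofReal, conj_I]
            simp
          · exact Continuous.smul (by fun_prop) (h.cont w)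
        obtain ⟨r, hr, he⟩ := gauss_pos h3 v hc
        refine ⟨r, hr, ?_⟩
        rw [← he, Real.fourier_eq']
        refine integral_congr_ae (Eventually.of_forall fun y => ?_)
        simp only [inner_smul_right, smul_eq_mul, φ]
        ring
      choose r hr he using h2
      refine exists_meas_of_nonneg (by fun_prop) ?_ hr he
      exact (gauss_int hc).ofReal.mul_bdd (c := ‖v‖ * ‖v‖) hφc.aestronglyMeasurable
        (Eventually.of_forall hφb)
    choose μ hμ hμ' using h1
    have hp : ∀ n, IsProbabilityMeasure (μ n) := by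
      intro n
      have h2 := hμ' n 0
      rw [charFun_zero, hφ0] at h2
      have h3 : (μ n).real Set.univ = 1 := by
        have : ((μ n).real Set.univ : ℂ) = ((1 : ℝ) : ℂ) := by rw [h2]; simp
        exact_mod_cast this
      exact ⟨(ENNReal.toReal_eq_one_iff _).1 h3⟩
    obtain ⟨ν, hν, hν'⟩ := exists_meas_of_lim (μ := μ) (f := φ) hφc.continuousAt fun t => by
      simp_rw [hμ']
      have h2 : Tendsto (fun n : ℕ => -(1 / ((n : ℝ) + 1)) * ‖t‖ ^ 2) atTop (𝓝 (-0 * ‖t‖ ^ 2)) :=
        tendsto_one_div_add_atTop_nhds_zero_nat.neg.mul_const _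
      rw [neg_zero, zero_mul] at h2
      have h3 := (continuous_ofReal.tendsto _).comp ((Real.continuous_exp.tendsto 0).comp h2)
      have h4 := h3.mul_const (φ t)
      simpa using h4
    exact ⟨ν, inferInstance, hν'⟩
  by_cases hv : v = 0
  · refine ⟨0, inferInstance, fun y => ?_⟩
    simp [hv]
  · have hn : 0 < ‖v‖ := norm_pos_iff.2 hv
    obtain ⟨ν, hν, hν'⟩ := key (((‖v‖⁻¹ : ℝ) : ℂ) • v) (by
      rw [norm_smul, norm_real, Real.norm_of_nonneg (by positivity), inv_mul_cancel₀ hn.ne'])
    refine ⟨(‖v‖₊ ^ 2) • ν, inferInstance, fun y => ?_⟩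
    have h1 := hν' y
    rw [h.map_smul, inner_smul_left, inner_smul_right, conj_ofReal] at h1
    rw [charFun_apply, integral_smul_nnreal_measure, ← charFun_apply, h1, NNReal.smul_def,
      real_smul]
    have h2 : (‖v‖ : ℂ) ≠ 0 := by exact_mod_cast hn.ne'
    push_cast
    field_simp

end Vale.Agent.P352X.SN

end
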