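import Vale.Agent.P352X.SN.Calc
import Vale.Agent.P352X.SN.Boch

/-!
# P352X, block SN: the Borel calculus of a unitary representation, definitions
-/

noncomputable section

open MeasureTheory Filter Topology Complex
open scoped ENNReal NNReal ComplexConjugate

namespace Vale.Agent.P352X.SN

variable {X : Type*} [MeasurableSpace X] {Y : Type*}

/-- the characters `p ↦ exp (i pr p y)` -/
def ch (pr : X → Y → ℝ) (y : Y) (p : X) : ℂ := cexp (I * (pr p y : ℝ))

/-- the standard pairing -/
def dot {ι : Type*} [Fintype ι] (p y : ι → ℝ) : ℝ := ∑ j, p j * y j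

/-- `pr` is a perfect pairing of the momenta `X` with the finite dimensional space `Y`. -/
def IsPair [AddCommGroup Y] [Module ℝ Y] [TopologicalSpace Y] (pr : X → Y → ℝ) : Prop :=
  ∃ (n : ℕ) (a : X ≃ᵐ EuclideanSpace ℝ (Fin n)) (b : Y ≃L[ℝ] EuclideanSpace ℝ (Fin n)),
    ∀ p y, pr p y = inner ℝ (a p) (b y)

variable {H : Type*} [NormedAddCommGroup H] [InnerProductSpace ℂ H] [CompleteSpace H]

/-- **The Borel calculus of the representation `U`**: `U y = Phi (p ↦ exp (i pr p y))`. -/
structure BC (pr : X → Y → ℝ) (U : Y → H → H) extends Calc X H where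
  Phi_ch : ∀ y v, Phi (ch pr y) v = U y v

namespace Calc

variable (C : Calc X H)

/-- the truncations of a function -/
def trunc (f : X → ℂ) (n : ℕ) : X → ℂ := {p | ‖f p‖ ≤ n}.indicator f

/-- `v` is in the domain of the operator `f(P)` -/
def Dom (f : X → ℂ) (v : H) : Prop := Measurable f ∧ MemLp f 2 (C.nu v)

/-- the unbounded calculus: `Psi f v = f(P) v` for `v` in the domain -/
def Psi (f : X → ℂ) (v : H) : H := limUnder atTop fun n : ℕ => C.Phi (trunc f n) v

end Calc

end Vale.Agent.P352X.SN

end
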