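import Vale.Agent.P352X.SN.Dom
import Mathlib.Analysis.Real.Pi.Bounds

/-!
# P352X, block SN: the form domain of a generator
-/

noncomputable section

open MeasureTheory Filter Topology Complex Set
open scoped ENNReal NNReal ComplexConjugate

namespace Vale.Agent.P352X.SN

/-- the function of the form norm -/
def qf (r : ℝ) : ℝ≥0∞ :=
  ∫⁻ s in Ioc (0 : ℝ) 1, ENNReal.ofReal (‖cexp (I * (s * r : ℝ)) - 1‖ ^ 2 / s ^ 2)

lemma qf_le (r : ℝ) : qf r ≤ 9 * ENNReal.ofReal |r| := by
  have ha := abs_nonneg r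
  have hd : ∀ s ∈ uIcc (0 : ℝ) 1, HasDerivAt (fun s => -9 * |r| * (1 + |r| * s)⁻¹)
      (9 * |r| ^ 2 / (1 + |r| * s) ^ 2) s := by
    intro s hs
    rw [uIcc_of_le zero_le_one] at hs
    have h0 : 1 + |r| * s ≠ 0 := by have := mul_nonneg ha hs.1; positivity
    have h1 : HasDerivAt (fun s => 1 + |r| * s) (|r|) s := by
      simpa using ((hasDerivAt_id s).const_mul |r|).const_add 1
    exact ((h1.fun_inv h0).const_mul (-9 * |r|)).congr_deriv (by rw [sq |r|]; ring)
  have hc : ContinuousOn (fun s => 9 * |r| ^ 2 / (1 + |r| * s) ^ 2) (uIcc (0 : ℝ) 1) := by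
    refine continuousOn_const.div (by fun_prop) fun s hs => ?_
    rw [uIcc_of_le zero_le_one] at hs
    have := mul_nonneg ha hs.1
    positivity
  have hi := intervalIntegral.integral_eq_sub_of_hasDerivAt hd hc.intervalIntegrable
  rw [intervalIntegral.integral_of_le zero_le_one] at hi
  have hI : IntegrableOn (fun s => 9 * |r| ^ 2 / (1 + |r| * s) ^ 2) (Ioc (0 : ℝ) 1) :=
    (intervalIntegrable_iff_integrableOn_Ioc_of_le zero_le_one).1 hc.intervalIntegrable
  calc qf r ≤ ∫⁻ s in Ioc (0 : ℝ) 1, ENNReal.ofReal (9 * |r| ^ 2 / (1 + |r| * s) ^ 2) := by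
        refine setLIntegral_mono' measurableSet_Ioc fun s hs => ENNReal.ofReal_le_ofReal ?_
        have hs0 := hs.1
        have hx := mul_nonneg ha hs0.le
        have h1 : ‖cexp (I * (s * r : ℝ)) - 1‖ ≤ |r| * s := by
          refine Real.norm_exp_I_mul_ofReal_sub_one_le.trans_eq ?_
          rw [Real.norm_eq_abs, abs_mul, abs_of_pos hs0, mul_comm]
        have h2 : ‖cexp (I * (s * r : ℝ)) - 1‖ ≤ 2 := by
          refine (norm_sub_le _ _).trans_eq ?_
          rw [norm_exp_I_mul_ofReal, norm_one]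
          norm_num
        have h0 := norm_nonneg (cexp (I * (s * r : ℝ)) - 1)
        set z := ‖cexp (I * (s * r : ℝ)) - 1‖
        rw [div_le_div_iff₀ (by positivity) (by positivity), ← mul_pow,
          show 9 * |r| ^ 2 * s ^ 2 = (3 * (|r| * s)) ^ 2 by ring]
        refine pow_le_pow_left₀ (by positivity) ?_ 2
        nlinarith
    _ = ENNReal.ofReal (∫ s in Ioc (0 : ℝ) 1, 9 * |r| ^ 2 / (1 + |r| * s) ^ 2) :=
        (ofReal_integral_eq_lintegral_ofReal hI (Eventually.of_forall fun s => by positivity)).symm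
    _ ≤ ENNReal.ofReal (9 * |r|) := by
        refine ENNReal.ofReal_le_ofReal ?_
        rw [hi]
        have : 0 ≤ |r| * (1 + |r| * 1)⁻¹ := by positivity
        simp only [mul_zero, add_zero, inv_one, mul_one] at this ⊢
        linarith
    _ = 9 * ENNReal.ofReal |r| := by
        rw [ENNReal.ofReal_mul (by norm_num)]
        simp

lemma le_qf (r : ℝ) : ENNReal.ofReal |r| ≤ 1 + 3 * qf r := by
  rcases le_or_gt |r| 1 with h | h
  · exact (ENNReal.ofReal_le_one.2 h).trans le_self_add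
  have ha : 0 < |r| := zero_lt_one.trans h
  refine le_trans ?_ le_add_self
  have h1 : ENNReal.ofReal (|r| / 3) ≤ qf r := by
    calc ENNReal.ofReal (|r| / 3) = ∫⁻ _ in Ioc (0 : ℝ) |r|⁻¹, ENNReal.ofReal (|r| ^ 2 / 3) := by
          rw [setLIntegral_const, Real.volume_Ioc, ← ENNReal.ofReal_mul (by positivity)]
          congr 1
          field_simp
          simp
      _ ≤ ∫⁻ s in Ioc (0 : ℝ) |r|⁻¹,
            ENNReal.ofReal (‖cexp (I * (s * r : ℝ)) - 1‖ ^ 2 / s ^ 2) := by
          refine setLIntegral_mono' measurableSet_Ioc fun s hs => ENNReal.ofReal_le_ofReal ?_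
          have hs0 := hs.1
          have h2 : s * |r| ≤ 1 := by
            have := mul_le_mul_of_nonneg_right hs.2 ha.le
            rwa [inv_mul_cancel₀ ha.ne'] at this
          have hpi := Real.pi_gt_three
          have hpi' := Real.pi_lt_d2
          have h3 : |s * r / 2| = s * |r| / 2 := by
            rw [abs_div, abs_mul, abs_of_pos hs0, abs_two]
          have h4 := Real.mul_abs_le_abs_sin (x := s * r / 2) (by rw [h3]; linarith)
          rw [h3] at h4
          rw [Complex.norm_exp_I_mul_ofReal_sub_one, norm_mul, Real.norm_eq_abs, Real.norm_eq_abs,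
            abs_two, le_div_iff₀ (by positivity)]
          have h5 : 3 / 5 * (s * |r|) ≤ 2 * |Real.sin (s * r / 2)| := by
            have : 3 / 5 ≤ 2 / Real.pi := by rw [div_le_div_iff₀ (by norm_num) (by linarith)]; linarith
            have h6 : 0 ≤ s * |r| := by positivity
            nlinarith
          have h6 := pow_le_pow_left₀ (by positivity) h5 2
          have h7 : 0 ≤ (s * |r|) ^ 2 := by positivity
          nlinarith
      _ ≤ qf r := lintegral_mono_set (Ioc_subset_Ioc_right (inv_le_one_of_one_le₀ h.le))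
  calc ENNReal.ofReal |r| = 3 * ENNReal.ofReal (|r| / 3) := by
        rw [← ENNReal.ofReal_ofNat, ← ENNReal.ofReal_mul (by norm_num)]
        congr 1
        ring
    _ ≤ 3 * qf r := by gcongr

variable {X : Type*} [MeasurableSpace X]
variable {H : Type*} [NormedAddCommGroup H] [InnerProductSpace ℂ H] [CompleteSpace H]
variable {Y : Type*} [AddCommGroup Y] [Module ℝ Y] [TopologicalSpace Y] {pr : X → Y → ℝ}

/-- the form norm of `v` for the generator of `s ↦ U (s • y)` -/
def Qn (U : Y → H → H) (y : Y) (v : H) : ℝ≥0∞ :=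
  ∫⁻ s in Ioc (0 : ℝ) 1, ENNReal.ofReal (‖U (s • y) v - v‖ ^ 2 / s ^ 2)

omit [InnerProductSpace ℂ H] [CompleteSpace H] [TopologicalSpace Y] in
/-- **stability of the form domain** under Lipschitz maps that almost commute with the group -/
theorem Qn_lip {H' Y' : Type*} [NormedAddCommGroup H'] [AddCommGroup Y'] [Module ℝ Y']
    {U : Y → H → H} {U' : Y' → H' → H'} {y : Y} {y' : Y'} {T : H → H'} {M L : ℝ}
    (hT : ∀ a b, ‖T a - T b‖ ≤ M * ‖a - b‖) {v : H}
    (hL : ∀ s ∈ Ioc (0 : ℝ) 1, ‖U' (s • y') (T v) - T (U (s • y) v)‖ ≤ L * s) :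
    Qn U' y' (T v) ≤ ENNReal.ofReal (2 * L ^ 2) + ENNReal.ofReal (2 * M ^ 2) * Qn U y v := by
  calc Qn U' y' (T v) ≤ ∫⁻ s in Ioc (0 : ℝ) 1, ENNReal.ofReal (2 * L ^ 2) +
        ENNReal.ofReal (2 * M ^ 2) * ENNReal.ofReal (‖U (s • y) v - v‖ ^ 2 / s ^ 2) := by
        refine setLIntegral_mono' measurableSet_Ioc fun s hs => ?_
        rw [← ENNReal.ofReal_mul (by positivity), ← ENNReal.ofReal_add (by positivity)
          (by positivity)]
        refine ENNReal.ofReal_le_ofReal ?_
        have hs0 := hs.1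
        have h1 : ‖U' (s • y') (T v) - T v‖ ≤ L * s + M * ‖U (s • y) v - v‖ :=
          (norm_sub_le_norm_sub_add_norm_sub _ _ _).trans (add_le_add (hL s hs) (hT _ _))
        have h2 := pow_le_pow_left₀ (norm_nonneg _) h1 2
        rw [div_le_iff₀ (by positivity), add_mul, mul_assoc (2 * M ^ 2),
          div_mul_cancel₀ _ (by positivity)]
        nlinarith [sq_nonneg (L * s - M * ‖U (s • y) v - v‖)]
    _ = _ := by
        rw [lintegral_add_left measurable_const, lintegral_const_mul' _ _ ENNReal.ofReal_ne_top]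
        simp [Qn]

omit [CompleteSpace H] in
lemma Qn_neg {U : Y → H → H} (hU : URep U) (y : Y) (v : H) : Qn U (-y) v = Qn U y v := by
  refine lintegral_congr fun s => ?_
  rw [← hU.norm (s • y), ← hU.op_apply (s • y), map_sub, URep.op_apply, URep.op_apply,
    ← hU.add, smul_neg, add_neg_cancel, hU.zero, norm_sub_rev]

namespace BC

variable {U : Y → H → H} (C : BC pr U)

theorem Qn_eq (hp : IsPair pr) (y : Y) (v : H) : Qn U y v = ∫⁻ p, qf (pr p y) ∂C.nu v := by
  have hm := hp.meas y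
  simp only [qf]
  rw [lintegral_lintegral_swap (by
    refine Measurable.aemeasurable (Measurable.ennreal_ofReal ?_)
    fun_prop)]
  refine lintegral_congr fun s => ?_
  have hb : Bd fun p => cexp (I * (s * pr p y : ℝ)) := Bd.expI (measurable_const.mul hm)
  have h1 := C.dist_sq hb (Bd.const 1) v
  rw [C.one, one_apply_eq_self, ← C.U_smul hp] at h1
  rw [h1, ← integral_div, ofReal_integral_eq_lintegral_ofReal
    ((memLp_sq ((hb.sub (Bd.const 1)).memLp _ 2)).div_const _)
    (Eventually.of_forall fun p => by positivity)]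

theorem Qn_le (hp : IsPair pr) (y : Y) (v : H) :
    Qn U y v ≤ 9 * ∫⁻ p, ENNReal.ofReal |pr p y| ∂C.nu v := by
  rw [C.Qn_eq hp, ← lintegral_const_mul' _ _ (by norm_num)]
  exact lintegral_mono fun p => qf_le _

theorem le_Qn (hp : IsPair pr) (y : Y) (v : H) :
    ∫⁻ p, ENNReal.ofReal |pr p y| ∂C.nu v ≤ ENNReal.ofReal (‖v‖ ^ 2) + 3 * Qn U y v := by
  rw [C.Qn_eq hp, ← lintegral_const_mul' _ _ (by norm_num), ← C.nu_univ, ofReal_measureReal,
    ← lintegral_one, ← lintegral_add_left measurable_const]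
  exact lintegral_mono fun p => le_qf _

/-- **the form domain** -/
theorem integrable_iff (hp : IsPair pr) (y : Y) (v : H) :
    Integrable (fun p => pr p y) (C.nu v) ↔ Qn U y v < ∞ := by
  have e : HasFiniteIntegral (fun p => pr p y) (C.nu v) ↔
      ∫⁻ p, ENNReal.ofReal |pr p y| ∂C.nu v < ∞ := hasFiniteIntegral_iff_norm _
  constructor
  · intro h
    exact (C.Qn_le hp y v).trans_lt (ENNReal.mul_lt_top (by norm_num) (e.1 h.2))
  · intro h
    exact ⟨(hp.meas y).aestronglyMeasurable, e.2 ((C.le_Qn hp y v).trans_lt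
      (ENNReal.add_lt_top.2 ⟨ENNReal.ofReal_lt_top, ENNReal.mul_lt_top (by norm_num) h⟩))⟩

lemma norm_sqrt_sq (r : ℝ) : ‖((√|r| : ℝ) : ℂ)‖ ^ 2 = |r| := by
  rw [norm_real, Real.norm_eq_abs, sq_abs, Real.sq_sqrt (abs_nonneg r)]

theorem dom_sqrt_iff (hp : IsPair pr) (y : Y) (v : H) :
    C.Dom (fun p => ((√|pr p y| : ℝ) : ℂ)) v ↔ Qn U y v < ∞ := by
  have hm := hp.meas y
  rw [Calc.dom_iff (by fun_prop), ← C.integrable_iff hp]
  simp only [norm_sqrt_sq]
  exact integrable_norm_iff hm.aestronglyMeasurable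

theorem Qn_le_Psi (hp : IsPair pr) {y : Y} {v : H}
    (h : C.Dom (fun p => ((√|pr p y| : ℝ) : ℂ)) v) :
    Qn U y v ≤ ENNReal.ofReal (9 * ‖C.Psi (fun p => ((√|pr p y| : ℝ) : ℂ)) v‖ ^ 2) := by
  rw [ENNReal.ofReal_mul (by norm_num), ← Calc.lintegral_sq h]
  simpa only [norm_sqrt_sq, ENNReal.ofReal_ofNat] using C.Qn_le hp y v

theorem Psi_le_Qn (hp : IsPair pr) {y : Y} {v : H} {K : ℝ} (hK : 0 ≤ K)
    (h : Qn U y v ≤ ENNReal.ofReal K) : C.Dom (fun p => ((√|pr p y| : ℝ) : ℂ)) v ∧
      ‖C.Psi (fun p => ((√|pr p y| : ℝ) : ℂ)) v‖ ^ 2 ≤ ‖v‖ ^ 2 + 3 * K := by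
  have h1 := (C.dom_sqrt_iff hp y v).2 (h.trans_lt ENNReal.ofReal_lt_top)
  refine ⟨h1, ?_⟩
  rw [← ENNReal.ofReal_le_ofReal_iff (by positivity), ← Calc.lintegral_sq h1,
    ENNReal.ofReal_add (by positivity) (by positivity), ENNReal.ofReal_mul (by norm_num)]
  simp only [norm_sqrt_sq, ENNReal.ofReal_ofNat]
  exact (C.le_Qn hp y v).trans (by gcongr)

end BC

end Vale.Agent.P352X.SN

end
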