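import Vale.Agent.P352X.SN.Main
import Vale.Agent.P352.GFDefs

/-!
# P352X, block SN: examples of perfect pairings
-/

noncomputable section

open MeasureTheory Filter Topology Complex Module

namespace Vale.Agent.P352X.SN

/-- nondegenerate bilinear forms on finite dimensional spaces are perfect pairings -/
theorem isPair_of_bilin {X Y : Type*} [NormedAddCommGroup X] [NormedSpace ℝ X]
    [FiniteDimensional ℝ X] [MeasurableSpace X] [BorelSpace X] [NormedAddCommGroup Y]
    [NormedSpace ℝ Y] [FiniteDimensional ℝ Y] {pr : X → Y → ℝ}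
    (al : ∀ p q y, pr (p + q) y = pr p y + pr q y) (sl : ∀ (t : ℝ) p y, pr (t • p) y = t * pr p y)
    (ar : ∀ p x y, pr p (x + y) = pr p x + pr p y) (sr : ∀ (t : ℝ) p y, pr p (t • y) = t * pr p y)
    (h1 : ∀ p, (∀ y, pr p y = 0) → p = 0) (h2 : ∀ y, (∀ p, pr p y = 0) → y = 0) : IsPair pr := by
  let B : X →ₗ[ℝ] Y →ₗ[ℝ] ℝ := LinearMap.mk₂ ℝ pr al sl ar sr
  let b : Y ≃L[ℝ] EuclideanSpace ℝ (Fin (finrank ℝ Y)) :=
    ContinuousLinearEquiv.ofFinrankEq finrank_euclideanSpace_fin.symm
  let a0 : X → EuclideanSpace ℝ (Fin (finrank ℝ Y)) := fun p =>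
    (InnerProductSpace.toDual ℝ _).symm (LinearMap.toContinuousLinearMap (B p ∘ₗ b.symm.toLinearMap))
  have e : ∀ p t, inner ℝ (a0 p) t = pr p (b.symm t) := fun p t =>
    InnerProductSpace.toDual_symm_apply
  let a1 : X →ₗ[ℝ] EuclideanSpace ℝ (Fin (finrank ℝ Y)) :=
    { toFun := a0
      map_add' := fun p q => ext_inner_right ℝ fun t => by rw [inner_add_left, e, e, e, al]
      map_smul' := fun c p => ext_inner_right ℝ fun t => by
        rw [RingHom.id_apply, real_inner_smul_left, e, e, sl] }
  have hi : Function.Injective a1 := by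
    rw [injective_iff_map_eq_zero]
    intro p hp
    refine h1 p fun y => ?_
    have := e p (b y)
    rw [b.symm_apply_apply] at this
    rw [← this, show a0 p = 0 from hp, inner_zero_left]
  have hs : Function.Surjective a1 := by
    rw [← LinearMap.range_eq_top, ← Submodule.orthogonal_eq_bot_iff, Submodule.eq_bot_iff]
    intro t ht
    have := h2 (b.symm t) fun p => by rw [← e]; exact ht _ ⟨p, rfl⟩
    simpa using this
  let a2 := (LinearEquiv.ofBijective a1 ⟨hi, hs⟩).toContinuousLinearEquiv
  refine ⟨_, a2.toHomeomorph.toMeasurableEquiv, b, fun p y => ?_⟩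
  have := e p (b y)
  rw [b.symm_apply_apply] at this
  exact this.symm

theorem isPair_dot {ι : Type*} [Fintype ι] : IsPair (dot (ι := ι)) := by
  classical
  refine isPair_of_bilin (fun p q y => ?_) (fun t p y => ?_) (fun p x y => ?_) (fun t p y => ?_)
    (fun p h => ?_) (fun y h => ?_)
  · simp [dot, add_mul, Finset.sum_add_distrib]
  · simp [dot, Finset.mul_sum, mul_assoc]
  · simp [dot, mul_add, Finset.sum_add_distrib]
  · simp [dot, Finset.mul_sum, mul_left_comm]
  · funext i
    simpa [dot, Pi.single_apply] using h (Pi.single i 1)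
  · funext i
    simpa [dot, Pi.single_apply] using h (Pi.single i 1)

theorem isPair_mul : IsPair fun p t : ℝ => p * t :=
  isPair_of_bilin (fun _ _ _ => add_mul _ _ _) (fun _ _ _ => mul_assoc _ _ _)
    (fun _ _ _ => mul_add _ _ _) (fun _ _ _ => mul_left_comm _ _ _)
    (fun p h => by simpa using h 1) (fun p h => by simpa using h 1)

theorem isPair_inner {E : Type*} [NormedAddCommGroup E] [InnerProductSpace ℝ E]
    [FiniteDimensional ℝ E] [MeasurableSpace E] [BorelSpace E] :
    IsPair fun p y : E => inner ℝ p y :=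
  isPair_of_bilin (fun _ _ _ => inner_add_left _ _ _) (fun _ _ _ => real_inner_smul_left _ _ _)
    (fun _ _ _ => inner_add_right _ _ _) (fun _ _ _ => real_inner_smul_right _ _ _)
    (fun p h => inner_self_eq_zero.1 (h p)) (fun p h => inner_self_eq_zero.1 (h p))

open Vale.Agent.P352 in
theorem isPair_mdot : IsPair GF.mdot := by
  have he : ∀ m, GF.eta m ≠ 0 := fun m => by
    unfold GF.eta
    split_ifs <;> norm_num
  refine isPair_of_bilin (fun p q y => ?_) (fun t p y => ?_) (fun p x y => ?_) (fun t p y => ?_)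
    (fun p h => ?_) (fun y h => ?_)
  · simp [GF.mdot, add_mul, mul_add, Finset.sum_add_distrib]
  · simp [GF.mdot, Finset.mul_sum, mul_assoc, mul_left_comm]
  · simp [GF.mdot, mul_add, Finset.sum_add_distrib]
  · simp [GF.mdot, Finset.mul_sum, mul_left_comm]
  · funext i
    simpa [GF.mdot, Pi.single_apply, he] using h (Pi.single i 1)
  · funext i
    simpa [GF.mdot, Pi.single_apply, he] using h (Pi.single i 1)

/-- products of pairings -/
theorem IsPair.prod {X Y X' Y' : Type*} [MeasurableSpace X] [MeasurableSpace X']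
    [AddCommGroup Y] [Module ℝ Y] [TopologicalSpace Y] [AddCommGroup Y'] [Module ℝ Y']
    [TopologicalSpace Y'] {pr : X → Y → ℝ} {pr' : X' → Y' → ℝ} (h : IsPair pr) (h' : IsPair pr') :
    IsPair fun (p : X × X') (y : Y × Y') => pr p.1 y.1 + pr' p.2 y.2 := by
  obtain ⟨n, a, b, e⟩ := h
  obtain ⟨n', a', b', e'⟩ := h'
  obtain ⟨m, a2, b2, e2⟩ := isPair_of_bilin (X := EuclideanSpace ℝ (Fin n) × EuclideanSpace ℝ (Fin n'))
    (Y := EuclideanSpace ℝ (Fin n) × EuclideanSpace ℝ (Fin n'))
    (pr := fun p y => inner ℝ p.1 y.1 + inner ℝ p.2 y.2)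
    (fun p q y => by simp only [Prod.fst_add, Prod.snd_add, inner_add_left]; ring)
    (fun t p y => by simp only [Prod.smul_fst, Prod.smul_snd, real_inner_smul_left]; ring)
    (fun p q y => by simp only [Prod.fst_add, Prod.snd_add, inner_add_right]; ring)
    (fun t p y => by simp only [Prod.smul_fst, Prod.smul_snd, real_inner_smul_right]; ring)
    (fun p h => Prod.ext (by simpa using h (p.1, 0)) (by simpa using h (0, p.2)))
    (fun p h => Prod.ext (by simpa using h (p.1, 0)) (by simpa using h (0, p.2)))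
  refine ⟨m, (a.prodCongr a').trans a2, (b.prodCongr b').trans b2, fun p y => ?_⟩
  simp only [e, e']
  exact e2 (a p.1, a' p.2) (b y.1, b' y.2)

/-- change of coordinates -/
theorem IsPair.comp {X Y X' Y' : Type*} [MeasurableSpace X] [MeasurableSpace X']
    [AddCommGroup Y] [Module ℝ Y] [TopologicalSpace Y] [AddCommGroup Y'] [Module ℝ Y']
    [TopologicalSpace Y'] {pr : X → Y → ℝ} (h : IsPair pr) (a' : X' ≃ᵐ X) (b' : Y' ≃L[ℝ] Y) :
    IsPair fun p y => pr (a' p) (b' y) := by
  obtain ⟨n, a, b, e⟩ := h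
  exact ⟨n, a'.trans a, b'.trans b, fun p y => e _ _⟩

end Vale.Agent.P352X.SN

end
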