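import Vale.Agent.P352X.SN.Form
import Mathlib.Analysis.Fourier.RiemannLebesgueLemma

/-!
# P352X, block SN: matrix elements, smearing, ergodic theorem, weak limits, pigeonhole bounds
-/

noncomputable section

open MeasureTheory Filter Topology Complex Set
open scoped ENNReal NNReal ComplexConjugate

namespace Vale.Agent.P352X.SN

variable {X : Type*} [MeasurableSpace X]
variable {H : Type*} [NormedAddCommGroup H] [InnerProductSpace ℂ H] [CompleteSpace H]

namespace Calc

variable {C : Calc X H} {f g : X → ℂ} {v w : H}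

lemma dom_mk (x : Lp ℂ 2 (C.nu v)) : C.Dom ((Lp.aestronglyMeasurable x).mk x) v :=
  ⟨(Lp.aestronglyMeasurable x).stronglyMeasurable_mk.measurable,
    (Lp.memLp x).ae_eq (Lp.aestronglyMeasurable x).ae_eq_mk⟩

variable (C v) in
/-- the isometry `f ↦ f(P) v` of `L²(ν_v)` into `H` -/
def iso : Lp ℂ 2 (C.nu v) →ₗᵢ[ℂ] H where
  toFun x := C.Psi ((Lp.aestronglyMeasurable x).mk x) v
  map_add' x y := by
    rw [← Psi_add (dom_mk x) (dom_mk y)]
    refine Psi_congr_ae (dom_mk _) ((dom_mk x).add (dom_mk y)).1 ?_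
    filter_upwards [(Lp.aestronglyMeasurable x).ae_eq_mk, (Lp.aestronglyMeasurable y).ae_eq_mk,
      (Lp.aestronglyMeasurable (x + y)).ae_eq_mk, Lp.coeFn_add x y] with p h1 h2 h3 h4
    rw [← h1, ← h2, ← h3, h4, Pi.add_apply]
  map_smul' c x := by
    rw [RingHom.id_apply, ← Psi_smul c (dom_mk x)]
    refine Psi_congr_ae (dom_mk _) ((dom_mk x).smul c).1 ?_
    filter_upwards [(Lp.aestronglyMeasurable x).ae_eq_mk,
      (Lp.aestronglyMeasurable (c • x)).ae_eq_mk, Lp.coeFn_smul c x] with p h1 h3 h4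
    rw [← h1, ← h3, h4, Pi.smul_apply, smul_eq_mul]
  norm_map' x := by
    refine (pow_left_inj₀ (norm_nonneg _) (norm_nonneg _) two_ne_zero).1 ?_
    simp only [LinearMap.coe_mk, AddHom.coe_mk]
    rw [norm_Psi_sq (dom_mk x), ← l2_norm_sq (dom_mk x).2]
    congr 2
    exact Lp.ext ((dom_mk x).2.coeFn_toLp.trans (Lp.aestronglyMeasurable x).ae_eq_mk.symm)

lemma iso_toLp (hf : C.Dom f v) : C.iso v (hf.2.toLp f) = C.Psi f v :=
  Psi_congr_ae (dom_mk _) hf.1
    ((Lp.aestronglyMeasurable _).ae_eq_mk.symm.trans hf.2.coeFn_toLp)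

variable (C v w) in
/-- **matrix elements**: the complex measure of the pair `w, v` has a square integrable density
with respect to the measure of `v`. -/
theorem rep : ∃ h, C.Dom h v ∧ ‖C.Psi h v‖ ≤ ‖w‖ ∧ ∀ f, C.Dom f v →
    Inner.inner ℂ w (C.Psi f v) = ∫ p, conj (h p) * f p ∂C.nu v := by
  let T := (C.iso v).toContinuousLinearMap
  let x := ContinuousLinearMap.adjoint T w
  refine ⟨_, dom_mk x, ?_, fun f hf => ?_⟩
  · change ‖C.iso v x‖ ≤ _
    rw [LinearIsometry.norm_map]
    refine (ContinuousLinearMap.le_opNorm _ _).trans ?_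
    rw [LinearIsometryEquiv.norm_map]
    exact mul_le_of_le_one_left (norm_nonneg _) (C.iso v).norm_toContinuousLinearMap_le
  · rw [← l2_inner (dom_mk x).2 hf.2, ← iso_toLp hf]
    have : (dom_mk x).2.toLp _ = x :=
      Lp.ext ((dom_mk x).2.coeFn_toLp.trans (Lp.aestronglyMeasurable x).ae_eq_mk.symm)
    rw [this, ContinuousLinearMap.adjoint_inner_left]
    rfl

section Fubini

variable {Z : Type*} [MeasurableSpace Z] {m : Measure Z} [SFinite m] {F : Z → X → ℂ}
  {b : Z → ℝ} {G : X → ℝ}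

lemma dom_integral (hF : Measurable (Function.uncurry F)) (hb : Integrable b m)
    (hG : MemLp G 2 (C.nu v)) (h : ∀ z p, ‖F z p‖ ≤ b z * G p) :
    C.Dom (fun p => ∫ z, F z p ∂m) v := by
  have hm : Measurable fun p => ∫ z, F z p ∂m :=
    (hF.stronglyMeasurable.integral_prod_left' (μ := m)).measurable
  refine ⟨hm, (hG.const_mul (∫ z, b z ∂m)).of_le hm.aestronglyMeasurable
    (Eventually.of_forall fun p => ?_)⟩
  refine le_trans ?_ (le_abs_self _)
  rw [← integral_mul_const]
  exact norm_integral_le_of_norm_le (hb.mul_const _) (Eventually.of_forall fun z => h z p)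

lemma dom_section (hF : Measurable (Function.uncurry F)) (hG : MemLp G 2 (C.nu v))
    (h : ∀ z p, ‖F z p‖ ≤ b z * G p) (z : Z) : C.Dom (F z) v :=
  ⟨hF.of_uncurry_left, (hG.const_mul (b z)).of_le hF.of_uncurry_left.aestronglyMeasurable
    (Eventually.of_forall fun p => (h z p).trans (le_abs_self _))⟩

/-- **weak smearing** -/
theorem inner_integral (hF : Measurable (Function.uncurry F)) (hb : Integrable b m)
    (hG : MemLp G 2 (C.nu v)) (h : ∀ z p, ‖F z p‖ ≤ b z * G p) (w : H) :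
    Integrable (fun z => Inner.inner ℂ w (C.Psi (F z) v)) m ∧
    Inner.inner ℂ w (C.Psi (fun p => ∫ z, F z p ∂m) v) =
      ∫ z, Inner.inner ℂ w (C.Psi (F z) v) ∂m := by
  obtain ⟨k, hk, -, e⟩ := C.rep v w
  have hI : Integrable (Function.uncurry fun z p => conj (k p) * F z p) (m.prod (C.nu v)) := by
    refine (hb.mul_prod (hk.2.norm.integrable_mul hG)).mono' ?_ (Eventually.of_forall fun x => ?_)
    · exact (((continuous_conj.measurable.comp hk.1).comp measurable_snd).mul
        hF).aestronglyMeasurable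
    · rw [Function.uncurry, norm_mul, RCLike.norm_conj, Pi.mul_apply, mul_left_comm]
      exact mul_le_mul_of_nonneg_left (h _ _) (norm_nonneg _)
  simp only [e _ (dom_integral hF hb hG h), e _ (dom_section hF hG h _)]
  refine ⟨hI.integral_prod_left, ?_⟩
  rw [integral_integral_swap hI]
  simp only [integral_const_mul]

/-- **smearing** -/
theorem integral_Psi (hF : Measurable (Function.uncurry F)) (hb : Integrable b m)
    (hG : MemLp G 2 (C.nu v)) (h : ∀ z p, ‖F z p‖ ≤ b z * G p)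
    (hI : Integrable (fun z => C.Psi (F z) v) m) :
    ∫ z, C.Psi (F z) v ∂m = C.Psi (fun p => ∫ z, F z p ∂m) v := by
  refine ext_inner_left ℂ fun w => ?_
  rw [(inner_integral hF hb hG h w).2, ← integral_inner hI]

omit [SFinite m] in
lemma integrable_Psi (hF : Measurable (Function.uncurry F)) (hb : Integrable b m)
    (hG : MemLp G 2 (C.nu v)) (h : ∀ z p, ‖F z p‖ ≤ b z * G p)
    (hI : AEStronglyMeasurable (fun z => C.Psi (F z) v) m) :
    Integrable (fun z => C.Psi (F z) v) m := by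
  refine (hb.norm.mul_const (√(∫ p, G p ^ 2 ∂C.nu v))).mono' hI (Eventually.of_forall fun z => ?_)
  refine (pow_le_pow_iff_left₀ (norm_nonneg _) (by positivity) two_ne_zero).1 ?_
  rw [norm_Psi_sq (dom_section hF hG h z), mul_pow,
    Real.sq_sqrt (integral_nonneg fun _ => sq_nonneg _), ← integral_const_mul]
  refine integral_mono (dom_section hF hG h z).integrable_sq (hG.integrable_sq.const_mul _)
    fun p => ?_
  refine (pow_le_pow_left₀ (norm_nonneg _) (h z p) 2).trans_eq ?_
  simp only [mul_pow, Real.norm_eq_abs, sq_abs]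

end Fubini

lemma P_P {A B : Set X} (hA : MeasurableSet A) (hB : MeasurableSet B) (v : H) :
    C.P A (C.P B v) = C.P (A ∩ B) v := by
  rw [P, P, P, ← C.mul_apply (Bd.ind hA) (Bd.ind hB)]
  congr 2
  funext p
  by_cases h1 : p ∈ A <;> by_cases h2 : p ∈ B <;> simp [h1, h2]

lemma P_empty (v : H) : C.P ∅ v = 0 := by
  simp only [P, indicator_empty]
  exact congrFun (congrArg _ C.zero) v

lemma P_univ (v : H) : C.P univ v = v := by
  simp only [P, indicator_univ, C.one, one_apply_eq_self]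

lemma P_compl {A : Set X} (hA : MeasurableSet A) (v : H) : C.P Aᶜ v = v - C.P A v := by
  have : (Aᶜ.indicator fun _ => (1 : ℂ)) = fun p => 1 - A.indicator (fun _ => (1 : ℂ)) p := by
    funext p
    by_cases h : p ∈ A <;> simp [h]
  rw [P, this, C.sub (Bd.const 1) (Bd.ind hA), C.one]
  rfl

lemma P_adj {A : Set X} (hA : MeasurableSet A) (v w : H) :
    Inner.inner ℂ (C.P A v) w = Inner.inner ℂ v (C.P A w) := by
  rw [P, C.adj (Bd.ind hA)]
  congr 3
  funext p
  by_cases h : p ∈ A <;> simp [h]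

lemma norm_P_le {A : Set X} (hA : MeasurableSet A) (v : H) : ‖C.P A v‖ ≤ ‖v‖ := by
  simpa only [one_mul, P] using C.norm_le (Bd.ind hA) zero_le_one v (Eventually.of_forall fun p =>
    (norm_indicator_le_norm_self _ _).trans (by simp))

lemma norm_P_mono {A B : Set X} (hA : MeasurableSet A) (hB : MeasurableSet B)
    (h : ∀ᵐ p ∂C.nu v, p ∈ A → p ∈ B) : ‖C.P A v‖ ≤ ‖C.P B v‖ := by
  refine (pow_le_pow_iff_left₀ (norm_nonneg _) (norm_nonneg _) two_ne_zero).1 ?_
  rw [← C.nu_real hA, ← C.nu_real hB]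
  exact ENNReal.toReal_mono (measure_ne_top _ _) (measure_mono_ae h)

lemma nu_P {A : Set X} (hA : MeasurableSet A) (v : H) :
    C.nu (C.P A v) = (C.nu v).restrict A := by
  rw [P, C.nu_Phi (Bd.ind hA), ← withDensity_indicator_one hA]
  congr 1
  funext p
  by_cases hp : p ∈ A <;> simp [hp]

lemma P_eq_self {A : Set X} (hA : MeasurableSet A) : C.P A v = v ↔ ∀ᵐ p ∂C.nu v, p ∈ A := by
  rw [eq_comm, ← sub_eq_zero, ← P_compl hA, ← C.nu_eq_zero hA.compl]
  rfl

/-- limits of projections -/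
lemma tendsto_P {ι : Type*} {l : Filter ι} [l.IsCountablyGenerated] {A : ι → Set X}
    (hA : ∀ i, MeasurableSet (A i)) {B : Set X} (hB : MeasurableSet B)
    (h : ∀ᵐ p ∂C.nu v, ∀ᶠ i in l, p ∈ A i ↔ p ∈ B) :
    Tendsto (fun i => C.P (A i) v) l (𝓝 (C.P B v)) := by
  refine C.tendsto_Phi (fun i => Bd.ind (hA i)) (Bd.ind hB) (K := 1)
    (Eventually.of_forall fun i => Eventually.of_forall fun p =>
      (norm_indicator_le_norm_self _ _).trans (by simp)) ?_
  filter_upwards [h] with p hp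
  refine tendsto_const_nhds.congr' ?_
  filter_upwards [hp] with i hi
  by_cases h : p ∈ B <;> simp [h, hi]

/-- Chebyshev's inequality -/
lemma norm_P_le_Psi {A : Set X} (hA : MeasurableSet A) (hf : C.Dom f v) {R : ℝ} (hR : 0 < R)
    (h : ∀ᵐ p ∂C.nu v, p ∈ A → R ≤ ‖f p‖) : ‖C.P A v‖ ≤ R⁻¹ * ‖C.Psi f v‖ := by
  rw [P, ← Psi_bd (Bd.ind hA)]
  refine norm_Psi_le hf (Bd.ind hA).1 (by positivity) ?_
  filter_upwards [h] with p hp
  by_cases h1 : p ∈ A
  · rw [indicator_of_mem h1, norm_one, ← div_eq_inv_mul, one_le_div hR]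
    exact hp h1
  · rw [indicator_of_notMem h1, norm_zero]
    positivity

/-- **moving sets**: a set that is moved off itself by a strongly continuous family of symmetries
has measure zero. -/
theorem nu_zero_of_move {ι : Type*} {l : Filter ι} [l.NeBot] {W : ι → H → H} {k : ι → X → X}
    (hk : ∀ i, Measurable (k i)) {A : Set X} (hA : MeasurableSet A)
    (hW : ∀ i, W i (C.P A v) = C.P (k i ⁻¹' A) (W i v))
    (hc : Tendsto (fun i => W i (C.P A v)) l (𝓝 (C.P A v)))
    (hd : ∀ᶠ i in l, ∀ p ∈ A, k i p ∉ A) : C.nu v A = 0 := by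
  rw [C.nu_eq_zero hA]
  have h1 := ((C.P A).continuous.tendsto _).comp hc
  rw [P_P hA hA, inter_self] at h1
  refine tendsto_nhds_unique h1 (tendsto_const_nhds.congr' ?_)
  filter_upwards [hd] with i hi
  rw [Function.comp_apply, hW, P_P hA (hk i hA), eq_empty_of_forall_notMem
    (s := A ∩ k i ⁻¹' A) fun p hp => hi p hp.1 hp.2, P_empty]

/-- **weak limits**: symmetries that move the support of `η` to infinity map `η` weakly to zero. -/
theorem weak_null {H' X' : Type*} [NormedAddCommGroup H'] [InnerProductSpace ℂ H']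
    [CompleteSpace H'] [MeasurableSpace X'] {C' : Calc X' H'} {ι : Type*} {l : Filter ι}
    [l.IsCountablyGenerated] {W : ι → H → H'} {K : ℝ}
    (hK : ∀ i a b, ‖W i a - W i b‖ ≤ K * ‖a - b‖) (hK0 : ∀ i a, ‖W i a‖ ≤ K * ‖a‖)
    {k : ι → X' → X} (hk : ∀ i, Measurable (k i)) {η : H} {A : ℕ → Set X}
    (hA : ∀ n, MeasurableSet (A n)) (hW : ∀ i n, W i (C.P (A n) η) = C'.P (k i ⁻¹' A n) (W i η))
    (h1 : ∀ᵐ p ∂C.nu η, ∀ᶠ n in atTop, p ∈ A n) {w : H'}
    (h2 : ∀ n, ∀ᵐ p ∂C'.nu w, ∀ᶠ i in l, k i p ∉ A n) {E : ι → H} (hE : Tendsto E l (𝓝 η)) :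
    Tendsto (fun i => Inner.inner ℂ w (W i (E i))) l (𝓝 (0 : ℂ)) := by
  have a1 : Tendsto (fun n => C.P (A n) η) atTop (𝓝 η) := by
    simpa only [P_univ] using tendsto_P (C := C) (v := η) hA MeasurableSet.univ (by simpa using h1)
  have a2 : ∀ n, Tendsto (fun i => C'.P (k i ⁻¹' A n) w) l (𝓝 0) := fun n => by
    simpa only [P_empty] using tendsto_P (C := C') (v := w) (fun i => hk i (hA n))
      MeasurableSet.empty (by simpa using h2 n)
  have a3 : ∀ n, Tendsto (fun i => ‖w‖ * (|K| * ‖E i - C.P (A n) η‖) +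
      ‖C'.P (k i ⁻¹' A n) w‖ * (|K| * ‖η‖)) l (𝓝 (‖w‖ * (|K| * ‖η - C.P (A n) η‖))) := fun n => by
    have := ((((hE.sub_const (C.P (A n) η)).norm).const_mul |K|).const_mul ‖w‖).add
      ((a2 n).norm.mul_const (|K| * ‖η‖))
    simpa only [norm_zero, zero_mul, add_zero] using this
  have a4 : Tendsto (fun n => ‖w‖ * (|K| * ‖η - C.P (A n) η‖)) atTop (𝓝 0) := by
    simpa using (((a1.const_sub η).norm).const_mul |K|).const_mul ‖w‖
  rw [NormedAddGroup.tendsto_nhds_zero]
  intro ε hε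
  obtain ⟨n, hn⟩ := (a4.eventually_lt_const hε).exists
  filter_upwards [(a3 n).eventually_lt_const hn] with i hi
  refine lt_of_le_of_lt ?_ hi
  have e : Inner.inner ℂ w (W i (E i)) = Inner.inner ℂ w (W i (E i) - W i (C.P (A n) η)) +
      Inner.inner ℂ (C'.P (k i ⁻¹' A n) w) (W i η) := by
    rw [P_adj (hk i (hA n)), ← hW, ← inner_add_right, sub_add_cancel]
  rw [e]
  refine (norm_add_le _ _).trans (add_le_add ((norm_inner_le_norm _ _).trans ?_)
    ((norm_inner_le_norm _ _).trans ?_))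
  · refine mul_le_mul_of_nonneg_left ((hK _ _ _).trans ?_) (norm_nonneg _)
    exact mul_le_mul_of_nonneg_right (le_abs_self _) (norm_nonneg _)
  · refine mul_le_mul_of_nonneg_left ((hK0 _ _).trans ?_) (norm_nonneg _)
    exact mul_le_mul_of_nonneg_right (le_abs_self _) (norm_nonneg _)

lemma sum_P_le {ι : Type*} (s : Finset ι) {A : ι → Set X} (hA : ∀ i, MeasurableSet (A i))
    (hd : ∀ i ∈ s, ∀ j ∈ s, i ≠ j → Disjoint (A i) (A j)) (v : H) :
    ∑ i ∈ s, ‖C.P (A i) v‖ ^ 2 ≤ ‖v‖ ^ 2 := by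
  simp_rw [← C.nu_real (hA _), ← C.nu_univ]
  rw [← measureReal_biUnion_finset (fun i hi j hj hij => hd i hi j hj hij) fun i _ => hA i]
  exact measureReal_mono (subset_univ _)

/-- **pigeonhole bound** -/
theorem pigeon {ι : Type*} {s : Finset ι} (hs : s.Nonempty) {A : ι → Set X}
    (hA : ∀ i, MeasurableSet (A i)) (hd : ∀ i ∈ s, ∀ j ∈ s, i ≠ j → Disjoint (A i) (A j))
    {a ε : ℝ} (h : ∀ i ∈ s, a ≤ ‖C.P (A i) v‖ + ε) : a ≤ ‖v‖ / √s.card + ε := by
  have hc : (0 : ℝ) < s.card := Nat.cast_pos.2 hs.card_pos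
  obtain ⟨i, hi, h1⟩ : ∃ i ∈ s, ‖C.P (A i) v‖ ^ 2 ≤ ‖v‖ ^ 2 / s.card := by
    refine Finset.exists_le_of_sum_le hs ((sum_P_le s hA hd v).trans_eq ?_)
    rw [Finset.sum_const, nsmul_eq_mul, mul_div_cancel₀ _ hc.ne']
  refine (h i hi).trans (add_le_add_left ?_ ε)
  refine (pow_le_pow_iff_left₀ (norm_nonneg _) (by positivity) two_ne_zero).1 ?_
  rwa [div_pow, Real.sq_sqrt hc.le]

/-- the pigeonhole bound for symmetries -/
theorem pigeon_move {ι : Type*} {s : Finset ι} (hs : s.Nonempty) {W : ι → H → H}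
    (hn : ∀ i a, ‖W i a‖ = ‖a‖) {k : ι → X → X} (hk : ∀ i, Measurable (k i)) {A : Set X}
    (hA : MeasurableSet A) (hW : ∀ i, W i (C.P A v) = C.P (k i ⁻¹' A) (W i v))
    (hd : ∀ i ∈ s, ∀ j ∈ s, i ≠ j → ∀ p, k i p ∈ A → k j p ∉ A) {ε : ℝ}
    (h : ∀ i ∈ s, ‖W i v - v‖ ≤ ε) : ‖C.P A v‖ ≤ ‖v‖ / √s.card + ε := by
  refine pigeon (C := C) (A := fun i => k i ⁻¹' A) hs (fun i => hk i hA)
    (fun i hi j hj hij => disjoint_left.2 fun p => hd i hi j hj hij p) fun i hi => ?_
  rw [← hn i, hW, ← add_sub_cancel v (W i v), map_add]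
  exact (norm_add_le _ _).trans (add_le_add_right ((norm_P_le (hk i hA) _).trans (h i hi)) _)

end Calc

/-- the Riemann-Lebesgue lemma along rays -/
theorem rl_ray {E : Type*} [NormedAddCommGroup E] [NormedSpace ℝ E] [FiniteDimensional ℝ E]
    [MeasurableSpace E] [BorelSpace E] (μ : Measure E) [μ.IsAddHaarMeasure] (u : E → ℂ)
    {w : E →L[ℝ] ℝ} (hw : w ≠ 0) :
    Tendsto (fun t : ℝ => ∫ y, u y * cexp (I * (t * w y : ℝ)) ∂μ) atTop (𝓝 0) := by
  have h1 := tendsto_integral_exp_smul_cocompact u μ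
  have hpi := Real.pi_pos
  have h2 : Tendsto (fun t : ℝ => (-(t / (2 * Real.pi))) • w) atTop
      (cocompact (StrongDual ℝ E)) := by
    refine tendsto_cocompact_of_tendsto_dist_comp_atTop 0 ?_
    simp only [dist_zero_right, norm_smul, norm_neg, Real.norm_eq_abs]
    exact (tendsto_abs_atTop_atTop.comp (tendsto_id.atTop_div_const (by positivity))).atTop_mul_const
      (norm_pos_iff.2 hw)
  refine (h1.comp h2).congr fun t => integral_congr_ae (Eventually.of_forall fun y => ?_)
  simp only [Circle.smul_def, Real.fourierChar_apply, smul_eq_mul, smul_apply]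
  rw [mul_comm, mul_comm _ I]
  congr 4
  field_simp

variable {Y : Type*} [AddCommGroup Y] [Module ℝ Y] [TopologicalSpace Y] {pr : X → Y → ℝ}

lemma IsPair.meas₂ (hp : IsPair pr) {Z : Type*} [MeasurableSpace Z] [TopologicalSpace Z]
    [OpensMeasurableSpace Z] {y : Z → Y} (hy : Continuous y) :
    Measurable fun x : Z × X => pr x.2 (y x.1) := by
  obtain ⟨n, a, b, h⟩ := hp
  simp_rw [h]
  exact (continuous_fst.inner continuous_snd).measurable.comp
    ((a.measurable.comp measurable_snd).prodMk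
      ((b.continuous.comp hy).measurable.comp measurable_fst))

namespace BC

variable {U : Y → H → H} (C : BC pr U)

include C in
lemma cont (hp : IsPair pr) [FirstCountableTopology Y] (v : H) : Continuous fun y => U y v := by
  refine continuous_iff_continuousAt.2 fun y => ?_
  simp only [← C.Phi_ch]
  refine C.tendsto_Phi hp.bd (hp.bd y) (K := 1) (Eventually.of_forall fun y =>
    Eventually.of_forall fun p => (norm_ch pr y p).le) (Eventually.of_forall fun p => ?_)
  have := hp.cont p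
  exact (show Continuous fun y => ch pr y p by unfold ch; fun_prop).tendsto y

/-- **smeared unitaries** are functions of the momenta -/
theorem smear (hp : IsPair pr) [FirstCountableTopology Y] {Z : Type*} [MeasurableSpace Z]
    [TopologicalSpace Z] [OpensMeasurableSpace Z] [SecondCountableTopology Z] {m : Measure Z}
    [SFinite m] {y : Z → Y} (hy : Continuous y) {u : Z → ℂ} (hu : Integrable u m) (v : H) :
    Bd (fun p => ∫ z, u z * ch pr (y z) p ∂m) ∧
      ∫ z, u z • U (y z) v ∂m = C.Phi (fun p => ∫ z, u z * ch pr (y z) p ∂m) v := by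
  obtain ⟨u', hu', e⟩ := hu.aemeasurable
  have e1 : ∀ p, ∫ z, u z * ch pr (y z) p ∂m = ∫ z, u' z * ch pr (y z) p ∂m := fun p =>
    integral_congr_ae (e.mono fun z hz => by simp only [hz])
  have e2 : ∫ z, u z • U (y z) v ∂m = ∫ z, u' z • U (y z) v ∂m :=
    integral_congr_ae (e.mono fun z hz => by simp only [hz])
  simp only [e1, e2]
  have hu2 : Integrable u' m := hu.congr e
  have hF : Measurable (Function.uncurry fun z p => u' z * ch pr (y z) p) := by
    exact (hu'.comp measurable_fst).mul (Bd.expI (hp.meas₂ hy)).1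
  have hn : ∀ z p, ‖u' z * ch pr (y z) p‖ ≤ ‖u' z‖ * 1 := fun z p => by rw [norm_mul, norm_ch]
  have hb : Bd fun p => ∫ z, u' z * ch pr (y z) p ∂m :=
    ⟨(hF.stronglyMeasurable.integral_prod_left' (μ := m)).measurable, ∫ z, ‖u' z‖ * 1 ∂m,
      fun p => norm_integral_le_of_norm_le (hu2.norm.mul_const _)
        (Eventually.of_forall fun z => hn z p)⟩
  have e3 : ∀ z, C.Psi (fun p => u' z * ch pr (y z) p) v = u' z • U (y z) v := fun z => by
    rw [Calc.Psi_bd ((hp.bd _).smul _), C.smul _ (hp.bd _), smul_apply, C.Phi_ch]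
  refine ⟨hb, ?_⟩
  rw [← Calc.Psi_bd hb, ← Calc.integral_Psi hF hu2.norm (memLp_const 1) hn
    (Calc.integrable_Psi hF hu2.norm (memLp_const 1) hn ?_)]
  · simp only [e3]
  · simp only [e3]
    exact hu2.1.smul ((C.cont hp v).comp hy).aestronglyMeasurable

/-- **mean ergodic theorem** for the subgroup `e E` -/
theorem ergodic (hp : IsPair pr) [FirstCountableTopology Y] {E : Type*} [NormedAddCommGroup E]
    [NormedSpace ℝ E] [FiniteDimensional ℝ E] [MeasurableSpace E] [BorelSpace E] (μ : Measure E)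
    [μ.IsAddHaarMeasure] (e : E →L[ℝ] Y) {u : E → ℂ} (hu : Integrable u μ) (v : H) :
    MeasurableSet {p | ∀ y, pr p (e y) = 0} ∧
    Tendsto (fun t : ℝ => ∫ y, u y • U (e (t • y)) v ∂μ) atTop
      (𝓝 ((∫ y, u y ∂μ) • C.P {p | ∀ y, pr p (e y) = 0} v)) := by
  have hA : MeasurableSet {p | ∀ y, pr p (e y) = 0} := by
    obtain ⟨s, hs, hd⟩ := TopologicalSpace.exists_countable_dense E
    have : {p | ∀ y, pr p (e y) = 0} = ⋂ y ∈ s, {p | pr p (e y) = 0} := by
      ext p
      simp only [mem_ofPred_eq, mem_iInter]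
      refine ⟨fun h y _ => h y, fun h y => ?_⟩
      exact congrFun (Continuous.ext_on hd ((hp.cont p).comp e.continuous) continuous_const h) y
    rw [this]
    exact MeasurableSet.biInter hs fun y _ => measurableSet_eq_fun (hp.meas _) measurable_const
  refine ⟨hA, ?_⟩
  have h1 := fun t : ℝ => C.smear hp (m := μ) (y := fun y => e (t • y)) (by fun_prop) hu v
  simp only [fun t => (h1 t).2]
  rw [Calc.P, ← smul_apply, ← C.smul _ (Bd.ind hA)]
  refine C.tendsto_Phi (fun t => (h1 t).1) ((Bd.ind hA).smul _) (K := ∫ y, ‖u y‖ ∂μ)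
    (Eventually.of_forall fun t => Eventually.of_forall fun p =>
      norm_integral_le_of_norm_le hu.norm (Eventually.of_forall fun y => by
        rw [norm_mul, norm_ch, mul_one])) (Eventually.of_forall fun p => ?_)
  by_cases h : ∀ y, pr p (e y) = 0
  · rw [indicator_of_mem (show p ∈ {p | ∀ y, pr p (e y) = 0} from h)]
    simp only [ch, h, ofReal_zero, mul_zero, Complex.exp_zero, mul_one]
    exact tendsto_const_nhds
  · rw [indicator_of_notMem (show p ∉ {p | ∀ y, pr p (e y) = 0} from h), mul_zero]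
    let w : E →L[ℝ] ℝ := LinearMap.toContinuousLinearMap
      { toFun := fun y => pr p (e y)
        map_add' := fun x y => by rw [map_add, hp.add]
        map_smul' := fun t y => by rw [map_smul, hp.smul]; rfl }
    have hw : w ≠ 0 := fun h0 => h fun y => congrArg (fun w : E →L[ℝ] ℝ => w y) h0
    refine (rl_ray μ u hw).congr fun t => ?_
    simp only [ch, map_smul, hp.smul]
    rfl

end BC

end Vale.Agent.P352X.SN

end
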