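import Vale.Agent.P352X.SN.Main

/-!
# P352X, block SN: multiplication operators
-/

noncomputable section

open MeasureTheory Filter Topology Complex
open scoped ENNReal NNReal ComplexConjugate

namespace Vale.Agent.P352X.SN

variable {Z : Type*} [MeasurableSpace Z] {m : Measure Z}
variable {K : Type*} [NormedAddCommGroup K] [InnerProductSpace ℂ K]

lemma Bd.memLp_smul {f : Z → ℂ} (hf : Bd f) {g : Z → K} (hg : MemLp g 2 m) :
    MemLp (fun z => f z • g z) 2 m := by
  obtain ⟨C, -, hC⟩ := hf.nonneg_bound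
  refine hg.of_le_mul (c := C) (hf.1.aestronglyMeasurable.smul hg.1)
    (Eventually.of_forall fun z => ?_)
  rw [norm_smul]
  exact mul_le_mul_of_nonneg_right (hC z) (norm_nonneg _)

/-- multiplication by a bounded function -/
def mulL {f : Z → ℂ} (hf : Bd f) : Lp K 2 m →L[ℂ] Lp K 2 m :=
  LinearMap.mkContinuousOfExistsBound
    { toFun := fun g => (hf.memLp_smul (Lp.memLp g)).toLp _
      map_add' := fun g h => by
        rw [← MemLp.toLp_add]
        refine MemLp.toLp_congr _ _ ?_
        filter_upwards [Lp.coeFn_add g h] with z hz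
        rw [hz, Pi.add_apply, Pi.add_apply, smul_add]
      map_smul' := fun c g => by
        rw [RingHom.id_apply, ← MemLp.toLp_const_smul]
        refine MemLp.toLp_congr _ _ ?_
        filter_upwards [Lp.coeFn_smul c g] with z hz
        rw [hz, Pi.smul_apply, Pi.smul_apply, smul_comm] } (by
    obtain ⟨C, -, hC⟩ := hf.nonneg_bound
    refine ⟨C, fun g => Lp.norm_le_mul_norm_of_ae_le_mul ?_⟩
    filter_upwards [(hf.memLp_smul (Lp.memLp g)).coeFn_toLp] with z hz
    simp only [LinearMap.coe_mk, AddHom.coe_mk]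
    rw [hz, norm_smul]
    exact mul_le_mul_of_nonneg_right (hC z) (norm_nonneg _))

lemma mulL_coe {f : Z → ℂ} (hf : Bd f) (g : Lp K 2 m) : mulL hf g =ᵐ[m] fun z => f z • g z :=
  (hf.memLp_smul (Lp.memLp g)).coeFn_toLp

omit [InnerProductSpace ℂ K] in
lemma l2_sq_integrable (g : Lp K 2 m) : Integrable (fun z => ‖g z‖ ^ 2) m :=
  (memLp_two_iff_integrable_sq_norm (Lp.memLp g).1).1 (Lp.memLp g)

lemma integral_wd {g : Z → ℝ} (hg : AEMeasurable g m) (h0 : ∀ z, 0 ≤ g z) (f : Z → ℂ) :
    ∫ z, f z ∂(m.withDensity fun z => ENNReal.ofReal (g z)) = ∫ z, f z * g z ∂m := by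
  rw [integral_withDensity_eq_integral_toReal_smul₀ hg.ennreal_ofReal
    (Eventually.of_forall fun _ => ENNReal.ofReal_lt_top)]
  refine integral_congr_ae (Eventually.of_forall fun z => ?_)
  simp only [ENNReal.toReal_ofReal (h0 z), real_smul, mul_comm]

lemma inner_mulL {f : Z → ℂ} (hf : Bd f) (g : Lp K 2 m) :
    inner ℂ g (mulL hf g) = ∫ z, f z * (‖g z‖ ^ 2 : ℝ) ∂m := by
  rw [L2.inner_def]
  refine integral_congr_ae ?_
  filter_upwards [mulL_coe hf g] with z hz
  rw [hz, inner_smul_right, inner_self_eq_norm_sq_to_K]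
  push_cast
  rfl

variable [CompleteSpace K]

open Classical in
variable (m K) in
/-- **the calculus of multiplication operators** on `L²(m, K)` -/
def mulOp : Calc Z (Lp K 2 m) where
  nu g := m.withDensity fun z => ENNReal.ofReal (‖g z‖ ^ 2)
  fin g := isFiniteMeasure_withDensity_ofReal (l2_sq_integrable g).2
  Phi f := if hf : Bd f then mulL hf else 0
  add {f g} hf hg := by
    rw [dif_pos hf, dif_pos hg, dif_pos (hf.add hg)]
    ext u
    filter_upwards [mulL_coe (hf.add hg) u, mulL_coe hf u, mulL_coe hg u,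
      Lp.coeFn_add (mulL hf u) (mulL hg u)] with z h1 h2 h3 h4
    rw [add_apply, h1, h4, Pi.add_apply, h2, h3, add_smul]
  smul c {f} hf := by
    rw [dif_pos hf, dif_pos (hf.smul c)]
    ext u
    filter_upwards [mulL_coe (hf.smul c) u, mulL_coe hf u, Lp.coeFn_smul c (mulL hf u)]
      with z h1 h2 h4
    rw [smul_apply, h1, h4, Pi.smul_apply, h2, mul_smul]
  mul {f g} hf hg := by
    rw [dif_pos hf, dif_pos hg, dif_pos (hf.mul hg)]
    ext u
    filter_upwards [mulL_coe (hf.mul hg) u, mulL_coe hf (mulL hg u), mulL_coe hg u]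
      with z h1 h2 h3
    rw [mul_apply_eq_comp, h1, h2, h3, mul_smul]
  star {f} hf := by
    rw [dif_pos hf, dif_pos hf.cj]
    refine op_ext fun u => ?_
    rw [ContinuousLinearMap.star_eq_adjoint, ContinuousLinearMap.adjoint_inner_right,
      ← inner_conj_symm (mulL hf u), inner_mulL, inner_mulL, ← integral_conj]
    simp only [map_mul, conj_ofReal]
  one := by
    rw [dif_pos (Bd.const 1)]
    ext u
    filter_upwards [mulL_coe (Bd.const 1) u] with z h1
    rw [h1, one_smul]
    rfl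
  inner {f} hf u := by
    rw [dif_pos hf, inner_mulL, integral_wd (l2_sq_integrable u).aemeasurable
      fun _ => by positivity]

lemma mulOp_nu (g : Lp K 2 m) :
    (mulOp m K).nu g = m.withDensity fun z => ENNReal.ofReal (‖g z‖ ^ 2) := rfl

lemma mulOp_coe {f : Z → ℂ} (hf : Bd f) (g : Lp K 2 m) :
    (mulOp m K).Phi f g =ᵐ[m] fun z => f z • g z := by
  simp only [mulOp, dif_pos hf]
  exact mulL_coe hf g

lemma mulOp_toLp {f : Z → ℂ} (hf : Bd f) {g : Z → K} (hg : MemLp g 2 m) :
    (mulOp m K).Phi f (hg.toLp g) = (hf.memLp_smul hg).toLp _ := by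
  refine Lp.ext ?_
  filter_upwards [mulOp_coe hf (hg.toLp g), hg.coeFn_toLp, (hf.memLp_smul hg).coeFn_toLp]
    with z h1 h2 h3
  rw [h1, h2, h3]

/-- the domain of an unbounded multiplication operator -/
lemma mulOp_dom {f : Z → ℂ} (hf : Measurable f) (g : Lp K 2 m) :
    (mulOp m K).Dom f g ↔ MemLp (fun z => f z • g z) 2 m := by
  rw [Calc.dom_iff hf, mulOp_nu, integrable_withDensity_iff_integrable_smul₀'
    (l2_sq_integrable g).aemeasurable.ennreal_ofReal
    (Eventually.of_forall fun _ => ENNReal.ofReal_lt_top),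
    memLp_two_iff_integrable_sq_norm (f := fun z => f z • g z)
      (hf.aestronglyMeasurable.smul (Lp.memLp g).1)]
  refine integrable_congr (Eventually.of_forall fun z => ?_)
  simp only [ENNReal.toReal_ofReal (sq_nonneg _), smul_eq_mul, norm_smul]
  ring

lemma mulOp_Psi {f : Z → ℂ} {g : Lp K 2 m} (hf : (mulOp m K).Dom f g) :
    (mulOp m K).Psi f g =ᵐ[m] fun z => f z • g z := by
  have h1 := (mulOp_dom hf.1 g).1 hf
  have h2 := (Calc.dom_of_weak (C := mulOp m K) (v := g) (u := h1.toLp _) hf.1 ?_).2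
  · rw [h2]
    exact h1.coeFn_toLp
  · intro w hw
    rw [← Calc.Psi_adj hf hw]
    refine tendsto_nhds_unique (tendsto_const_nhds.inner (𝕜 := ℂ) (Calc.tendsto_trunc hf)) ?_
    simp_rw [L2.inner_def]
    refine tendsto_integral_filter_of_dominated_convergence (fun z => ‖w z‖ * ‖f z • g z‖)
      (Eventually.of_forall fun n => (Lp.memLp w).1.inner (Lp.memLp _).1)
      (Eventually.of_forall fun n => ?_) ((Lp.memLp w).norm.integrable_mul h1.norm) ?_
    · filter_upwards [mulOp_coe (Calc.trunc_bd hf.1 n) g] with z hz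
      rw [hz]
      refine (norm_inner_le_norm _ _).trans (mul_le_mul_of_nonneg_left ?_ (norm_nonneg _))
      rw [norm_smul, norm_smul]
      exact mul_le_mul_of_nonneg_right (Calc.norm_trunc_le f n z) (norm_nonneg _)
    · filter_upwards [ae_all_iff.2 fun n => mulOp_coe (Calc.trunc_bd hf.1 n) g, h1.coeFn_toLp]
        with z hz h3
      simp_rw [hz, h3]
      exact tendsto_const_nhds.inner ((Calc.trunc_tendsto f z).smul_const _)

variable {X : Type*} [MeasurableSpace X] {Y : Type*}
variable [AddCommGroup Y] [Module ℝ Y] [TopologicalSpace Y] {pr : X → Y → ℝ}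
variable {H : Type*} [NormedAddCommGroup H] [InnerProductSpace ℂ H] [CompleteSpace H]

/-- **iota lemma**: a map `ι : L²(m, K) → H` that turns the phases `ch y ∘ k` into the calculus
of the characters turns the multiplication by `f ∘ k` into `f(P)`. -/
theorem iota (hp : IsPair pr) (C : Calc X H) {k : Z → X} (hk : Measurable k)
    (ι : Lp K 2 m →L[ℂ] H) {g : Lp K 2 m} {w : H}
    (h : ∀ y, ι ((mulOp m K).Phi (fun z => ch pr y (k z)) g) = C.Phi (ch pr y) w)
    {f : X → ℂ} (hf : Bd f) : ι ((mulOp m K).Phi (fun z => f (k z)) g) = C.Phi f w :=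
  Calc.inter_of_ch hp ((mulOp m K).map k hk) C ι h hf

/-- the iota lemma for a representation -/
theorem BC.iota (hp : IsPair pr) {U : Y → H → H} (C : BC pr U) {k : Z → X} (hk : Measurable k)
    (ι : Lp K 2 m →L[ℂ] H) {g : Lp K 2 m}
    (h : ∀ y, ι ((mulOp m K).Phi (fun z => ch pr y (k z)) g) = U y (ι g))
    {f : X → ℂ} (hf : Bd f) : ι ((mulOp m K).Phi (fun z => f (k z)) g) = C.Phi f (ι g) :=
  SN.iota hp C.toCalc hk ι (fun y => by rw [h, C.Phi_ch]) hf

/-- the iota lemma for unbounded functions -/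
theorem BC.iota_Psi (hp : IsPair pr) {U : Y → H → H} (C : BC pr U) {k : Z → X} (hk : Measurable k)
    (ι : Lp K 2 m →L[ℂ] H) {g : Lp K 2 m}
    (h : ∀ y, ι ((mulOp m K).Phi (fun z => ch pr y (k z)) g) = U y (ι g))
    {f : X → ℂ} (hf : Measurable f) (hg : MemLp (fun z => f (k z) • g z) 2 m) :
    C.Dom f (ι g) ∧ C.Psi f (ι g) = ι (hg.toLp _) := by
  have h1 : ((mulOp m K).map k hk).Dom f g :=
    (Calc.map_dom hk hf g).2 ((mulOp_dom (hf.comp hk) g).2 hg)
  have h2 := Calc.Psi_intertwine (C := (mulOp m K).map k hk) (C' := C.toCalc) (W := ι)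
    measurable_id (fun _ hb => C.iota hp hk ι h hb) h1
  refine ⟨h2.1, h2.2.trans ?_⟩
  rw [Calc.map_Psi]
  congr 1
  exact Lp.ext ((mulOp_Psi ((Calc.map_dom hk hf g).1 h1)).trans hg.coeFn_toLp.symm)

end Vale.Agent.P352X.SN

end
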