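import Vale.Agent.P352.MathlibUsed
import Mathlib.MeasureTheory.Function.L2Space
import Mathlib.Analysis.InnerProductSpace.Adjoint

/-!
# P352X, block SN: bounded Borel calculi (projection valued measures)
-/

noncomputable section

open MeasureTheory Filter Topology Complex
open scoped ENNReal NNReal ComplexConjugate

namespace Vale.Agent.P352X.SN

variable {X : Type*} [MeasurableSpace X]

/-- bounded measurable functions -/
def Bd (f : X → ℂ) : Prop := Measurable f ∧ ∃ C : ℝ, ∀ p, ‖f p‖ ≤ C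

namespace Bd

variable {f g : X → ℂ}

lemma const (c : ℂ) : Bd fun _ : X => c := ⟨measurable_const, ‖c‖, fun _ => le_rfl⟩

lemma add (hf : Bd f) (hg : Bd g) : Bd fun p => f p + g p := by
  obtain ⟨hf, C, hC⟩ := hf
  obtain ⟨hg, D, hD⟩ := hg
  exact ⟨hf.add hg, C + D, fun p => (norm_add_le _ _).trans (add_le_add (hC p) (hD p))⟩

lemma mul (hf : Bd f) (hg : Bd g) : Bd fun p => f p * g p := by
  obtain ⟨hf, C, hC⟩ := hf
  obtain ⟨hg, D, hD⟩ := hg
  refine ⟨hf.mul hg, C * D, fun p => ?_⟩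
  rw [norm_mul]
  exact mul_le_mul (hC p) (hD p) (norm_nonneg _) ((norm_nonneg _).trans (hC p))

lemma smul (c : ℂ) (hf : Bd f) : Bd fun p => c * f p := (const c).mul hf

lemma neg (hf : Bd f) : Bd fun p => -f p := by
  simpa using hf.smul (-1)

lemma sub (hf : Bd f) (hg : Bd g) : Bd fun p => f p - g p := by
  simpa [sub_eq_add_neg] using hf.add hg.neg

lemma cj (hf : Bd f) : Bd fun p => conj (f p) := by
  obtain ⟨hf, C, hC⟩ := hf
  exact ⟨continuous_conj.measurable.comp hf, C, fun p => by rw [RCLike.norm_conj]; exact hC p⟩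

lemma comp {Z : Type*} [MeasurableSpace Z] (hf : Bd f) {k : Z → X} (hk : Measurable k) :
    Bd fun z => f (k z) := by
  obtain ⟨hf, C, hC⟩ := hf
  exact ⟨hf.comp hk, C, fun z => hC _⟩

lemma indicator (hf : Bd f) {A : Set X} (hA : MeasurableSet A) : Bd (A.indicator f) := by
  obtain ⟨hf, C, hC⟩ := hf
  exact ⟨hf.indicator hA, C, fun p => (norm_indicator_le_norm_self _ _).trans (hC p)⟩

lemma ind {A : Set X} (hA : MeasurableSet A) : Bd (A.indicator fun _ => (1 : ℂ)) :=
  (const 1).indicator hA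

lemma sum {ι : Type*} (s : Finset ι) {F : ι → X → ℂ} (h : ∀ i ∈ s, Bd (F i)) :
    Bd fun p => ∑ i ∈ s, F i p := by
  classical
  induction s using Finset.induction_on with
  | empty => simpa using const (X := X) 0
  | insert a s ha ih =>
    simp_rw [Finset.sum_insert ha]
    exact (h a (Finset.mem_insert_self a s)).add
      (ih fun i hi => h i (Finset.mem_insert_of_mem hi))

/-- phases -/
lemma expI {r : X → ℝ} (hr : Measurable r) : Bd fun p => cexp (I * r p) :=
  ⟨by fun_prop, 1, fun p => by simp only; rw [mul_comm, norm_exp_ofReal_mul_I]⟩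

lemma ofReal {r : X → ℝ} (hr : Measurable r) {C : ℝ} (hC : ∀ p, |r p| ≤ C) :
    Bd fun p => (r p : ℂ) :=
  ⟨by fun_prop, C, fun p => by rw [norm_real]; exact hC p⟩

lemma memLp (hf : Bd f) (μ : Measure X) [IsFiniteMeasure μ] (q : ℝ≥0∞) : MemLp f q μ := by
  obtain ⟨hf, C, hC⟩ := hf
  exact MemLp.of_bound hf.aestronglyMeasurable C (Eventually.of_forall hC)

lemma integrable (hf : Bd f) (μ : Measure X) [IsFiniteMeasure μ] : Integrable f μ :=
  memLp_one_iff_integrable.1 (hf.memLp μ 1)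

lemma nonneg_bound (hf : Bd f) : ∃ C : ℝ, 0 ≤ C ∧ ∀ p, ‖f p‖ ≤ C := by
  obtain ⟨-, C, hC⟩ := hf
  exact ⟨max C 0, le_max_right _ _, fun p => (hC p).trans (le_max_left _ _)⟩

end Bd

lemma memLp_sq {f : X → ℂ} {μ : Measure X} (hf : MemLp f 2 μ) :
    Integrable (fun p => ‖f p‖ ^ 2) μ := (memLp_two_iff_integrable_sq_norm hf.1).1 hf

lemma conj_mul_self (z : ℂ) : conj z * z = ((‖z‖ ^ 2 : ℝ) : ℂ) := by
  rw [conj_mul', ofReal_pow]

/-- **Bounded Borel calculus** on the measurable space `X`: a unital `*`-homomorphism `Phi` from the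
bounded measurable functions to the operators, with spectral measures `nu v`. -/
structure Calc (X : Type*) [MeasurableSpace X] (H : Type*) [NormedAddCommGroup H]
    [InnerProductSpace ℂ H] [CompleteSpace H] where
  nu : H → Measure X
  fin : ∀ v, IsFiniteMeasure (nu v)
  Phi : (X → ℂ) → H →L[ℂ] H
  add : ∀ {f g}, Bd f → Bd g → Phi (fun p => f p + g p) = Phi f + Phi g
  smul : ∀ (c : ℂ) {f}, Bd f → Phi (fun p => c * f p) = c • Phi f
  mul : ∀ {f g}, Bd f → Bd g → Phi (fun p => f p * g p) = Phi f * Phi g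
  star : ∀ {f}, Bd f → Phi (fun p => conj (f p)) = star (Phi f)
  one : Phi (fun _ => 1) = 1
  inner : ∀ {f}, Bd f → ∀ v, inner ℂ v (Phi f v) = ∫ p, f p ∂nu v

variable {H : Type*} [NormedAddCommGroup H] [InnerProductSpace ℂ H] [CompleteSpace H]

namespace Calc

variable (C : Calc X H) {f g : X → ℂ}

instance (v : H) : IsFiniteMeasure (C.nu v) := C.fin v

lemma const (c : ℂ) : C.Phi (fun _ => c) = c • (1 : H →L[ℂ] H) := by
  have h := C.smul c (Bd.const (X := X) 1)
  simp only [mul_one] at h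
  rw [h, C.one]

lemma const_apply (c : ℂ) (v : H) : C.Phi (fun _ => c) v = c • v := by
  rw [C.const]; rfl

lemma zero : C.Phi (fun _ => 0) = 0 := by rw [C.const, zero_smul]

lemma neg (hf : Bd f) : C.Phi (fun p => -f p) = -C.Phi f := by
  have h := C.smul (-1) hf
  simpa using h

lemma sub (hf : Bd f) (hg : Bd g) : C.Phi (fun p => f p - g p) = C.Phi f - C.Phi g := by
  have h := C.add hf hg.neg
  rw [C.neg hg] at h
  simpa [sub_eq_add_neg] using h

lemma sum {ι : Type*} (s : Finset ι) {F : ι → X → ℂ} (h : ∀ i ∈ s, Bd (F i)) :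
    C.Phi (fun p => ∑ i ∈ s, F i p) = ∑ i ∈ s, C.Phi (F i) := by
  classical
  induction s using Finset.induction_on with
  | empty => simpa using C.zero
  | insert a s ha ih =>
    simp_rw [Finset.sum_insert ha]
    rw [C.add (h a (Finset.mem_insert_self a s))
      (Bd.sum s fun i hi => h i (Finset.mem_insert_of_mem hi)),
      ih fun i hi => h i (Finset.mem_insert_of_mem hi)]

lemma mul_apply (hf : Bd f) (hg : Bd g) (v : H) :
    C.Phi (fun p => f p * g p) v = C.Phi f (C.Phi g v) := by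
  rw [C.mul hf hg]; rfl

lemma comm (hf : Bd f) (hg : Bd g) (v : H) : C.Phi f (C.Phi g v) = C.Phi g (C.Phi f v) := by
  rw [← C.mul_apply hf hg, ← C.mul_apply hg hf]
  simp_rw [mul_comm]

/-- adjoints -/
lemma adj (hf : Bd f) (v w : H) :
    Inner.inner ℂ (C.Phi f v) w = Inner.inner ℂ v (C.Phi (fun p => conj (f p)) w) := by
  rw [C.star hf, ContinuousLinearMap.star_eq_adjoint, ContinuousLinearMap.adjoint_inner_right]

lemma adj' (hf : Bd f) (v w : H) :
    Inner.inner ℂ v (C.Phi f w) = Inner.inner ℂ (C.Phi (fun p => conj (f p)) v) w := by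
  rw [C.adj hf.cj]
  simp only [conj_conj]

lemma inner_Phi (hf : Bd f) (hg : Bd g) (v : H) :
    Inner.inner ℂ (C.Phi f v) (C.Phi g v) = ∫ p, conj (f p) * g p ∂C.nu v := by
  rw [C.adj hf, ← C.mul_apply hf.cj hg, C.inner (hf.cj.mul hg)]

lemma norm_sq (hf : Bd f) (v : H) : ‖C.Phi f v‖ ^ 2 = ∫ p, ‖f p‖ ^ 2 ∂C.nu v := by
  have h := C.inner_Phi hf hf v
  simp_rw [conj_mul_self] at h
  rw [inner_self_eq_norm_sq_to_K, integral_complex_ofReal] at h
  refine ofReal_injective ?_
  rw [← h]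
  push_cast
  rfl

lemma nu_univ (v : H) : (C.nu v).real Set.univ = ‖v‖ ^ 2 := by
  have h := C.norm_sq (Bd.const 1) v
  rw [C.one] at h
  simpa using h.symm

lemma norm_le (hf : Bd f) {K : ℝ} (hK0 : 0 ≤ K) (v : H) (hK : ∀ᵐ p ∂C.nu v, ‖f p‖ ≤ K) :
    ‖C.Phi f v‖ ≤ K * ‖v‖ := by
  refine (pow_le_pow_iff_left₀ (norm_nonneg _) (by positivity) two_ne_zero).1 ?_
  rw [C.norm_sq hf, mul_pow, ← C.nu_univ, mul_comm, ← smul_eq_mul, ← integral_const]
  refine integral_mono_ae (memLp_sq (hf.memLp _ 2)) (integrable_const _) ?_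
  filter_upwards [hK] with p hp
  exact pow_le_pow_left₀ (norm_nonneg _) hp 2

lemma opNorm_le (hf : Bd f) {K : ℝ} (hK0 : 0 ≤ K) (hK : ∀ p, ‖f p‖ ≤ K) : ‖C.Phi f‖ ≤ K :=
  ContinuousLinearMap.opNorm_le_bound _ hK0 fun v =>
    C.norm_le hf hK0 v (Eventually.of_forall hK)

lemma dist_sq (hf : Bd f) (hg : Bd g) (v : H) :
    ‖C.Phi f v - C.Phi g v‖ ^ 2 = ∫ p, ‖f p - g p‖ ^ 2 ∂C.nu v := by
  rw [← C.norm_sq (hf.sub hg), C.sub hf hg]; rfl

lemma congr_ae (hf : Bd f) (hg : Bd g) {v : H} (h : f =ᵐ[C.nu v] g) :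
    C.Phi f v = C.Phi g v := by
  have h1 := C.dist_sq hf hg v
  have h2 : ∫ p, ‖f p - g p‖ ^ 2 ∂C.nu v = 0 := by
    refine integral_eq_zero_of_ae ?_
    filter_upwards [h] with p hp
    simp [hp]
  rw [h2] at h1
  exact sub_eq_zero.1 (norm_eq_zero.1 (pow_eq_zero_iff two_ne_zero |>.1 h1))

/-- convergence in the mean -/
lemma tendsto_of_sq {ι : Type*} {l : Filter ι} {F : ι → X → ℂ} (hF : ∀ i, Bd (F i)) (hf : Bd f)
    {v : H} (h : Tendsto (fun i => ∫ p, ‖F i p - f p‖ ^ 2 ∂C.nu v) l (𝓝 0)) :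
    Tendsto (fun i => C.Phi (F i) v) l (𝓝 (C.Phi f v)) := by
  rw [tendsto_iff_norm_sub_tendsto_zero]
  simp_rw [← C.dist_sq (hF _) hf] at h
  have h1 := (Real.continuous_sqrt.tendsto 0).comp h
  rw [Real.sqrt_zero] at h1
  refine h1.congr fun i => ?_
  simp

/-- **dominated convergence** -/
theorem tendsto_Phi {ι : Type*} {l : Filter ι} [l.IsCountablyGenerated] {F : ι → X → ℂ}
    (hF : ∀ i, Bd (F i)) (hf : Bd f) {K : ℝ} {v : H}
    (hK : ∀ᶠ i in l, ∀ᵐ p ∂C.nu v, ‖F i p‖ ≤ K)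
    (h : ∀ᵐ p ∂C.nu v, Tendsto (fun i => F i p) l (𝓝 (f p))) :
    Tendsto (fun i => C.Phi (F i) v) l (𝓝 (C.Phi f v)) := by
  refine C.tendsto_of_sq hF hf ?_
  obtain ⟨K', -, hK'⟩ := hf.nonneg_bound
  have h0 : (0 : ℝ) = ∫ _ : X, (0 : ℝ) ∂C.nu v := by simp
  rw [h0]
  refine tendsto_integral_filter_of_dominated_convergence (fun _ => (K + K') ^ 2)
    (Eventually.of_forall fun i => ?_) ?_ (integrable_const _) ?_
  · exact (((hF i).sub hf).1.norm.pow_const 2).aestronglyMeasurable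
  · filter_upwards [hK] with i hi
    filter_upwards [hi] with p hp
    rw [Real.norm_of_nonneg (by positivity)]
    exact pow_le_pow_left₀ (norm_nonneg _)
      ((norm_sub_le _ _).trans (add_le_add hp (hK' p))) 2
  · filter_upwards [h] with p hp
    have h1 := ((hp.sub_const (f p)).norm).pow 2
    simpa using h1

/-- the spectral projections -/
def P (A : Set X) : H →L[ℂ] H := C.Phi (A.indicator fun _ => 1)

lemma nu_real {A : Set X} (hA : MeasurableSet A) (v : H) :
    (C.nu v).real A = ‖C.P A v‖ ^ 2 := by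
  rw [P, C.norm_sq (Bd.ind hA)]
  have : (fun p => ‖A.indicator (fun _ => (1 : ℂ)) p‖ ^ 2) = A.indicator fun _ => (1 : ℝ) := by
    funext p
    by_cases hp : p ∈ A <;> simp [hp]
  rw [this, integral_indicator hA]
  simp

lemma nu_apply {A : Set X} (hA : MeasurableSet A) (v : H) :
    C.nu v A = ENNReal.ofReal (‖C.P A v‖ ^ 2) := by
  rw [← C.nu_real hA, ofReal_measureReal]

lemma nu_eq_zero {A : Set X} (hA : MeasurableSet A) (v : H) : C.nu v A = 0 ↔ C.P A v = 0 := by
  rw [← measureReal_eq_zero_iff, C.nu_real hA]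
  simp

lemma P_Phi {A : Set X} (hA : MeasurableSet A) (hf : Bd f) (v : H) :
    C.P A (C.Phi f v) = C.Phi (A.indicator f) v := by
  rw [P, ← C.mul_apply (Bd.ind hA) hf]
  congr 2
  funext p
  by_cases hp : p ∈ A <;> simp [hp]

/-- the spectral measures of the vectors `Phi f v` -/
theorem nu_Phi (hf : Bd f) (v : H) :
    C.nu (C.Phi f v) = (C.nu v).withDensity fun p => ENNReal.ofReal (‖f p‖ ^ 2) := by
  ext A hA
  rw [C.nu_apply hA, C.P_Phi hA hf, C.norm_sq (hf.indicator hA), withDensity_apply _ hA,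
    ← ofReal_integral_eq_lintegral_ofReal (memLp_sq (hf.memLp _ 2)).integrableOn
      (Eventually.of_forall fun p => by positivity), ← integral_indicator hA]
  congr 2
  funext p
  by_cases hp : p ∈ A <;> simp [hp]

lemma nu_zero : C.nu 0 = 0 := by
  ext A hA
  rw [C.nu_apply hA]
  simp

lemma nu_smul (c : ℂ) (v : H) : C.nu (c • v) = (‖c‖₊ ^ 2) • C.nu v := by
  ext A hA
  rw [Measure.smul_apply, C.nu_apply hA, C.nu_apply hA, map_smul, norm_smul, mul_pow,
    ENNReal.ofReal_mul (by positivity), ENNReal.smul_def, smul_eq_mul]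
  congr 1
  rw [ENNReal.ofReal_pow (norm_nonneg _), ofReal_norm]
  simp [enorm]

lemma nu_neg (v : H) : C.nu (-v) = C.nu v := by
  have := C.nu_smul (-1) v
  simpa using this

lemma nu_add_le (v w : H) : C.nu (v + w) ≤ (2 : ℝ≥0) • (C.nu v + C.nu w) := by
  refine Measure.le_iff.2 fun A hA => ?_
  rw [Measure.smul_apply, Measure.add_apply, C.nu_apply hA, C.nu_apply hA, C.nu_apply hA,
    map_add, ← ENNReal.ofReal_add (by positivity) (by positivity), ENNReal.smul_def, smul_eq_mul,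
    ← ENNReal.ofReal_coe_nnreal, ← ENNReal.ofReal_mul (by positivity)]
  refine ENNReal.ofReal_le_ofReal ?_
  have h1 := norm_add_le (C.P A v) (C.P A w)
  have h2 := pow_le_pow_left₀ (norm_nonneg _) h1 2
  push_cast
  nlinarith [sq_nonneg (‖C.P A v‖ - ‖C.P A w‖)]

/-- the square integrable functions of a sum -/
lemma memLp_add {v w : H} (hv : MemLp f 2 (C.nu v)) (hw : MemLp f 2 (C.nu w)) :
    MemLp f 2 (C.nu (v + w)) := by
  have h1 : MemLp f 2 (C.nu v + C.nu w) := by
    refine ⟨hv.1.add_measure hw.1, ?_⟩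
    rw [eLpNorm_lt_top_iff_lintegral_rpow_enorm_lt_top (by norm_num) (by norm_num),
      lintegral_add_measure]
    exact ENNReal.add_lt_top.2
      ⟨(eLpNorm_lt_top_iff_lintegral_rpow_enorm_lt_top (by norm_num) (by norm_num)).1 hv.2,
        (eLpNorm_lt_top_iff_lintegral_rpow_enorm_lt_top (by norm_num) (by norm_num)).1 hw.2⟩
  exact (h1.smul_measure (c := ((2 : ℝ≥0) : ℝ≥0∞)) ENNReal.coe_ne_top).mono_measure
    (C.nu_add_le v w)

lemma memLp_smul (c : ℂ) {v : H} (hv : MemLp f 2 (C.nu v)) : MemLp f 2 (C.nu (c • v)) := by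
  rw [C.nu_smul]
  exact hv.smul_measure (c := ((‖c‖₊ ^ 2 : ℝ≥0) : ℝ≥0∞)) ENNReal.coe_ne_top

/-- a property that holds almost everywhere for the measure of `v` holds almost everywhere for the
measure of `Phi f v` -/
lemma nu_Phi_ac (hf : Bd f) (v : H) : C.nu (C.Phi f v) ≪ C.nu v := by
  rw [C.nu_Phi hf]
  exact withDensity_absolutelyContinuous _ _

/-- the push forward of a calculus -/
def map {Z : Type*} [MeasurableSpace Z] (k : X → Z) (hk : Measurable k) : Calc Z H where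
  nu v := (C.nu v).map k
  fin v := inferInstance
  Phi f := C.Phi fun p => f (k p)
  add hf hg := C.add (hf.comp hk) (hg.comp hk)
  smul c _ hf := C.smul c (hf.comp hk)
  mul hf hg := C.mul (hf.comp hk) (hg.comp hk)
  star hf := C.star (hf.comp hk)
  one := C.one
  inner hf v := by
    rw [C.inner (hf.comp hk), integral_map hk.aemeasurable hf.1.aestronglyMeasurable]

@[simp] lemma map_Phi {Z : Type*} [MeasurableSpace Z] (k : X → Z) (hk : Measurable k)
    (f : Z → ℂ) : (C.map k hk).Phi f = C.Phi fun p => f (k p) := rfl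

@[simp] lemma map_nu {Z : Type*} [MeasurableSpace Z] (k : X → Z) (hk : Measurable k) (v : H) :
    (C.map k hk).nu v = (C.nu v).map k := rfl

/-- two calculi with the same operators have the same measures -/
lemma nu_ext {C C' : Calc X H} {v : H} (h : ∀ A, MeasurableSet A → C.P A v = C'.P A v) :
    C.nu v = C'.nu v := by
  ext A hA
  rw [C.nu_apply hA, C'.nu_apply hA, h A hA]

/-- the closed subspace of the vectors whose measure is carried by a set -/
lemma ae_of_dense {A : Set X} (hA : MeasurableSet A) {S : Set H} (hS : Dense S)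
    (h : ∀ v ∈ S, ∀ᵐ p ∂C.nu v, p ∈ A) (v : H) : ∀ᵐ p ∂C.nu v, p ∈ A := by
  have h1 : ∀ w, (∀ᵐ p ∂C.nu w, p ∈ A) ↔ C.P Aᶜ w = 0 := fun w => by
    rw [← C.nu_eq_zero hA.compl]
    rfl
  rw [h1]
  exact closure_minimal (t := {w | C.P Aᶜ w = 0}) (fun w hw => (h1 w).1 (h w hw))
    (isClosed_eq (C.P Aᶜ).continuous continuous_const) (hS v)

end Calc

end Vale.Agent.P352X.SN

end
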