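import Vale.Agent.P352X.SN.Pair

/-!
# P352X, block SN: the spectral theorem for unitary representations of finite dimensional spaces
(existence, uniqueness and intertwining property of the Borel calculus)
-/

noncomputable section

open MeasureTheory Filter Topology Complex
open scoped ENNReal NNReal ComplexConjugate

namespace Vale.Agent.P352X.SN

variable {X : Type*} [MeasurableSpace X] {Y : Type*}
variable [AddCommGroup Y] [Module ℝ Y] [TopologicalSpace Y] {pr : X → Y → ℝ}
variable {H : Type*} [NormedAddCommGroup H] [InnerProductSpace ℂ H] [CompleteSpace H]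

omit [CompleteSpace H] in
lemma op_ext {S T : H →L[ℂ] H} (h : ∀ v, inner ℂ v (S v) = inner ℂ v (T v)) : S = T := by
  have := (ext_inner_map (S : H →ₗ[ℂ] H) T).1 fun v => by
    rw [← inner_conj_symm, ← inner_conj_symm ((T : H →ₗ[ℂ] H) v)]
    exact congrArg conj (h v)
  exact ContinuousLinearMap.coe_injective this

section Exist

variable {U : Y → H → H}

/-- the operators of the trigonometric polynomials -/
def Ut (U : Y → H → H) (v : H) : (Y →₀ ℂ) →ₗ[ℂ] H := Finsupp.linearCombination ℂ fun y => U y v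

omit [AddCommGroup Y] [Module ℝ Y] [TopologicalSpace Y] [CompleteSpace H] in
lemma Ut_single (v : H) (y : Y) (c : ℂ) : Ut U v (Finsupp.single y c) = c • U y v := by
  rw [Ut, Finsupp.linearCombination_single]

omit [Module ℝ Y] [CompleteSpace H] in
lemma Ut_add (hU : URep U) (v w : H) (c : Y →₀ ℂ) : Ut U (v + w) c = Ut U v c + Ut U w c := by
  induction c using Finsupp.induction_linear with
  | zero => simp
  | add c d hc hd => rw [map_add, map_add, map_add, hc, hd]; abel
  | single y c => rw [Ut_single, Ut_single, Ut_single, hU.map_add, smul_add]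

omit [Module ℝ Y] [CompleteSpace H] in
lemma Ut_smul (hU : URep U) (a : ℂ) (v : H) (c : Y →₀ ℂ) : Ut U (a • v) c = a • Ut U v c := by
  induction c using Finsupp.induction_linear with
  | zero => simp
  | add c d hc hd => rw [map_add, map_add, hc, hd, smul_add]
  | single y c => rw [Ut_single, Ut_single, hU.map_smul, smul_comm]

omit [CompleteSpace H] in
lemma Ut_inner (hp : IsPair pr) (hU : URep U) {v : H} {ν : Measure X} [IsFiniteMeasure ν]
    (h : ∀ y, ∫ p, ch pr y p ∂ν = inner ℂ v (U y v)) (c d : Y →₀ ℂ) :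
    inner ℂ (Ut U v c) (Ut U v d) = ∫ p, conj (tp pr c p) * tp pr d p ∂ν := by
  induction c using Finsupp.induction_linear with
  | zero => simp
  | add c c' hc hc' =>
    rw [map_add, inner_add_left, hc, hc', tp_add, ← integral_add
      (((hp.tp_bd c).cj.mul (hp.tp_bd d)).integrable ν)
      (((hp.tp_bd c').cj.mul (hp.tp_bd d)).integrable ν)]
    simp only [map_add, add_mul]
  | single x a =>
    induction d using Finsupp.induction_linear with
    | zero => simp
    | add d d' hd hd' =>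
      rw [map_add, inner_add_right, hd, hd', tp_add, ← integral_add
        (((hp.tp_bd _).cj.mul (hp.tp_bd d)).integrable ν)
        (((hp.tp_bd _).cj.mul (hp.tp_bd d')).integrable ν)]
      simp only [mul_add]
    | single y b =>
      rw [Ut_single, Ut_single, inner_smul_left, inner_smul_right, hU.inn', ← h, tp_single,
        tp_single, ← integral_const_mul, ← integral_const_mul]
      refine integral_congr_ae (Eventually.of_forall fun p => ?_)
      simp only [hp.ch_sub, map_mul]
      ring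

omit [CompleteSpace H] in
lemma Ut_dist (hp : IsPair pr) (hU : URep U) {v : H} {ν : Measure X} [IsFiniteMeasure ν]
    (h : ∀ y, ∫ p, ch pr y p ∂ν = inner ℂ v (U y v)) (c d : Y →₀ ℂ) :
    dist (Ut U v c) (Ut U v d) =
      dist (((hp.tp_bd c).memLp ν 2).toLp _) (((hp.tp_bd d).memLp ν 2).toLp _) := by
  rw [dist_eq_norm, dist_eq_norm, ← map_sub]
  refine (pow_left_inj₀ (norm_nonneg _) (norm_nonneg _) two_ne_zero).1 ?_
  have h1 := Ut_inner hp hU h (c - d) (c - d)
  simp_rw [conj_mul_self] at h1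
  rw [inner_self_eq_norm_sq_to_K, integral_complex_ofReal, tp_sub] at h1
  rw [l2_dist_sq]
  refine ofReal_injective ?_
  rw [← h1]
  push_cast
  rfl

lemma exists_lim (hp : IsPair pr) (hU : URep U) {v : H} {ν : Measure X} [IsFiniteMeasure ν]
    (h : ∀ y, ∫ p, ch pr y p ∂ν = inner ℂ v (U y v)) {f : X → ℂ} (hf : MemLp f 2 ν) :
    ∃ u, ∀ c, Appr pr ν c f → Tendsto (fun n => Ut U v (c n)) atTop (𝓝 u) := by
  obtain ⟨c0, h0⟩ := hp.appr hf
  have h1 : CauchySeq fun n => Ut U v (c0 n) := by
    have h2 := (hp.appr_toLp hf h0).cauchySeq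
    rw [Metric.cauchySeq_iff] at h2 ⊢
    simp_rw [Ut_dist hp hU h]
    exact h2
  obtain ⟨u, hu⟩ := cauchySeq_tendsto_of_complete h1
  refine ⟨u, fun c hc => hu.congr_dist ?_⟩
  simp_rw [Ut_dist hp hU h]
  simpa using (hp.appr_toLp hf h0).dist (hp.appr_toLp hf hc)

/-- **SNAG theorem**: every strongly continuous unitary representation has a Borel calculus. -/
theorem exists_BC (hp : IsPair pr) (hU : URep U) : Nonempty (BC pr U) := by
  classical
  choose ν hν hch using hp.bochner hU
  have hE : ∀ f : X → ℂ, ∀ v, ∃ u, Bd f →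
      ∀ c, Appr pr (ν v) c f → Tendsto (fun n => Ut U v (c n)) atTop (𝓝 u) := by
    intro f v
    by_cases hf : Bd f
    · obtain ⟨u, hu⟩ := exists_lim hp hU (hch v) (hf.memLp (ν v) 2)
      exact ⟨u, fun _ => hu⟩
    · exact ⟨0, fun h => absurd h hf⟩
  choose Φ hΦ using hE
  have hin : ∀ {f g}, Bd f → Bd g → ∀ v,
      inner ℂ (Φ f v) (Φ g v) = ∫ p, conj (f p) * g p ∂ν v := by
    intro f g hf hg v
    obtain ⟨c, hc⟩ := hp.appr (hf.memLp (ν v) 2)
    obtain ⟨d, hd⟩ := hp.appr (hg.memLp (ν v) 2)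
    refine tendsto_nhds_unique ((hΦ f v hf c hc).inner (𝕜 := ℂ) (hΦ g v hg d hd)) ?_
    rw [← l2_inner (hf.memLp (ν v) 2) (hg.memLp (ν v) 2)]
    refine ((hp.appr_toLp _ hc).inner (𝕜 := ℂ) (hp.appr_toLp _ hd)).congr fun n => ?_
    rw [l2_inner, Ut_inner hp hU (hch v)]
  have hch' : ∀ y v, Φ (ch pr y) v = U y v := by
    intro y v
    have h1 := hΦ _ v (hp.bd y) (fun _ => Finsupp.single y 1) (by
      simp only [Appr, tp_single, one_mul, sub_self, norm_zero]
      simp)
    simp only [Ut_single, one_smul] at h1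
    exact tendsto_nhds_unique h1 tendsto_const_nhds
  have hone : ∀ v, Φ (fun _ => 1) v = v := fun v => by
    have := hch' 0 v
    rwa [funext hp.ch_zero, hU.zero] at this
  have hdiag : ∀ {f}, Bd f → ∀ v, inner ℂ v (Φ f v) = ∫ p, f p ∂ν v := by
    intro f hf v
    have := hin (Bd.const 1) hf v
    simpa only [hone, map_one, one_mul] using this
  have hadd : ∀ {f}, Bd f → ∀ v w, Φ f (v + w) = Φ f v + Φ f w := by
    intro f hf v w
    have hm := hf.memLp (ν v + ν w + ν (v + w)) 2
    obtain ⟨c, hc⟩ := hp.appr hm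
    have h1 := hΦ f v hf c (hp.appr_mono hm hc (Measure.le_add_right (Measure.le_add_right le_rfl)))
    have h2 := hΦ f w hf c (hp.appr_mono hm hc (Measure.le_add_right (Measure.le_add_left le_rfl)))
    have h3 := hΦ f _ hf c (hp.appr_mono hm hc (Measure.le_add_left le_rfl))
    simp_rw [Ut_add hU] at h3
    exact tendsto_nhds_unique h3 (h1.add h2)
  have hsmul : ∀ {f}, Bd f → ∀ (a : ℂ) v, Φ f (a • v) = a • Φ f v := by
    intro f hf a v
    have hm := hf.memLp (ν v + ν (a • v)) 2
    obtain ⟨c, hc⟩ := hp.appr hm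
    have h1 := hΦ f v hf c (hp.appr_mono hm hc (Measure.le_add_right le_rfl))
    have h3 := hΦ f _ hf c (hp.appr_mono hm hc (Measure.le_add_left le_rfl))
    simp_rw [Ut_smul hU] at h3
    exact tendsto_nhds_unique h3 (h1.const_smul a)
  have hnorm : ∀ {f}, Bd f → ∀ v, ‖Φ f v‖ ^ 2 = ∫ p, ‖f p‖ ^ 2 ∂ν v := by
    intro f hf v
    have h1 := hin hf hf v
    simp_rw [conj_mul_self] at h1
    rw [inner_self_eq_norm_sq_to_K, integral_complex_ofReal] at h1
    refine ofReal_injective ?_
    rw [← h1]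
    push_cast
    rfl
  have hbd : ∀ {f}, Bd f → ∃ K, ∀ v, ‖Φ f v‖ ≤ K * ‖v‖ := by
    intro f hf
    obtain ⟨K, hK0, hK⟩ := hf.nonneg_bound
    refine ⟨K, fun v => ?_⟩
    refine (pow_le_pow_iff_left₀ (norm_nonneg _) (by positivity) two_ne_zero).1 ?_
    have h1 := hnorm (Bd.const 1) v
    rw [hone] at h1
    rw [hnorm hf, mul_pow, h1, ← integral_const_mul]
    refine integral_mono (memLp_sq (hf.memLp _ 2)) (integrable_const _) fun p => ?_
    simpa using pow_le_pow_left₀ (norm_nonneg _) (hK p) 2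
  let Ph : (X → ℂ) → H →L[ℂ] H := fun f => if hf : Bd f then
    LinearMap.mkContinuousOfExistsBound ⟨⟨Φ f, hadd hf⟩, hsmul hf⟩ (hbd hf) else 0
  have hPh : ∀ {f}, Bd f → ∀ v, Ph f v = Φ f v := by
    intro f hf v
    simp only [Ph, dif_pos hf]
    rfl
  have hst : ∀ {f}, Bd f → Ph (fun p => conj (f p)) = star (Ph f) := by
    intro f hf
    refine op_ext fun v => ?_
    rw [ContinuousLinearMap.star_eq_adjoint, ContinuousLinearMap.adjoint_inner_right, hPh hf.cj,
      hPh hf, hdiag hf.cj, ← inner_conj_symm, hdiag hf, integral_conj]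
  refine ⟨{ nu := ν, fin := hν, Phi := Ph, add := ?_, smul := ?_, mul := ?_, star := hst, one := ?_,
            inner := ?_, Phi_ch := ?_ }⟩
  · intro f g hf hg
    refine op_ext fun v => ?_
    rw [add_apply, inner_add_right, hPh hf, hPh hg, hPh (hf.add hg),
      hdiag hf, hdiag hg, hdiag (hf.add hg), integral_add (hf.integrable _) (hg.integrable _)]
  · intro c f hf
    refine op_ext fun v => ?_
    rw [smul_apply, inner_smul_right, hPh hf, hPh (hf.smul c),
      hdiag hf, hdiag (hf.smul c), integral_const_mul]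
  · intro f g hf hg
    refine op_ext fun v => ?_
    rw [mul_apply_eq_comp, ← ContinuousLinearMap.adjoint_inner_left (Ph f),
      ← ContinuousLinearMap.star_eq_adjoint, ← hst hf, hPh hf.cj, hPh hg, hPh (hf.mul hg),
      hin hf.cj hg, hdiag (hf.mul hg)]
    simp only [conj_conj]
  · ext v
    rw [hPh (Bd.const 1), hone]
    rfl
  · intro f hf v
    rw [hPh hf, hdiag hf]
  · intro y v
    rw [hPh (hp.bd y), hch']

end Exist

/-! ### Intertwining -/

namespace Calc

variable {H' : Type*} [NormedAddCommGroup H'] [InnerProductSpace ℂ H'] [CompleteSpace H']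

/-- **Intertwining from the characters**, for linear (`σ = id`) and antilinear (`σ = conj`) maps. -/
theorem inter_of_ch (hp : IsPair pr) (C : Calc X H) (C' : Calc X H') {σ : ℂ →+* ℂ}
    [RingHomIsometric σ] (W : H →SL[σ] H') {v : H} {w : H'}
    (h : ∀ y, W (C.Phi (ch pr y) v) = C'.Phi (fun p => σ (ch pr y p)) w) {f : X → ℂ}
    (hf : Bd f) : W (C.Phi f v) = C'.Phi (fun p => σ (f p)) w := by
  have hσ : Continuous σ := (AddMonoidHomClass.isometry_of_norm σ
    fun z => RingHomIsometric.norm_map).continuous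
  have hb : ∀ {g : X → ℂ}, Bd g → Bd fun p => σ (g p) := fun ⟨hg, K, hK⟩ =>
    ⟨hσ.measurable.comp hg, K, fun p => by rw [RingHomIsometric.norm_map]; exact hK p⟩
  have h1 : ∀ c, W (C.Phi (tp pr c) v) = C'.Phi (fun p => σ (tp pr c p)) w := by
    intro c
    induction c using Finsupp.induction_linear with
    | zero =>
      rw [tp_zero]
      simp only [map_zero, C.zero, C'.zero, zero_apply]
    | add c d hc hd =>
      simp only [tp_add, map_add σ]
      rw [C.add (hp.tp_bd c) (hp.tp_bd d), C'.add (hb (hp.tp_bd c)) (hb (hp.tp_bd d)),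
        add_apply, add_apply, map_add, hc, hd]
    | single y a =>
      simp only [tp_single, map_mul σ]
      rw [C.smul a (hp.bd y), C'.smul _ (hb (hp.bd y)), smul_apply,
        smul_apply, map_smulₛₗ, h]
  have hm := hf.memLp (C.nu v + C'.nu w) 2
  obtain ⟨c, hc⟩ := hp.appr hm
  have h2 := C.tendsto_of_sq (fun n => hp.tp_bd (c n)) hf
    (hp.appr_mono hm hc (Measure.le_add_right le_rfl))
  have h3 := C'.tendsto_of_sq (fun n => hb (hp.tp_bd (c n))) (hb hf) (v := w) (l := atTop) (by
    simp only [← map_sub σ, RingHomIsometric.norm_map]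
    exact hp.appr_mono hm hc (Measure.le_add_left le_rfl))
  have h4 := (W.continuous.tendsto _).comp h2
  exact tendsto_nhds_unique (h4.congr fun n => h1 (c n)) h3

end Calc

namespace BC

variable {U : Y → H → H} (C : BC pr U)
variable {H' : Type*} [NormedAddCommGroup H'] [InnerProductSpace ℂ H'] [CompleteSpace H']
variable {X' : Type*} [MeasurableSpace X']

/-- the Fourier transform of the spectral measure -/
lemma char (hp : IsPair pr) (v : H) (y : Y) :
    ∫ p, ch pr y p ∂C.nu v = Inner.inner ℂ v (U y v) := by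
  rw [← C.inner (hp.bd y), C.Phi_ch]

/-- the spectral measure is the unique finite measure with this Fourier transform -/
lemma nu_unique (hp : IsPair pr) {v : H} {μ : Measure X} [IsFiniteMeasure μ]
    (h : ∀ y, ∫ p, ch pr y p ∂μ = Inner.inner ℂ v (U y v)) : μ = C.nu v :=
  hp.meas_ext fun y => by rw [h, C.char hp]

/-- **Intertwining theorem**: if `W` maps the orbit of `v` like the phases `ch y ∘ k` act on `w`,
then it maps `f(P) v` to `(f ∘ k)(P') w`. -/
theorem intertwine (hp : IsPair pr) (C' : Calc X' H') {k : X' → X} (hk : Measurable k)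
    (W : H →L[ℂ] H') {v : H} {w : H'}
    (h : ∀ y, W (U y v) = C'.Phi (fun p => ch pr y (k p)) w) {f : X → ℂ} (hf : Bd f) :
    W (C.Phi f v) = C'.Phi (fun p => f (k p)) w :=
  Calc.inter_of_ch hp C.toCalc (C'.map k hk) W (fun y => by rw [C.Phi_ch]; exact h y) hf

/-- the intertwining theorem for antilinear maps -/
theorem intertwine_anti (hp : IsPair pr) (C' : Calc X' H') {k : X' → X} (hk : Measurable k)
    (W : H →L⋆[ℂ] H') {v : H} {w : H'}
    (h : ∀ y, W (U y v) = C'.Phi (fun p => conj (ch pr y (k p))) w) {f : X → ℂ} (hf : Bd f) :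
    W (C.Phi f v) = C'.Phi (fun p => conj (f (k p))) w :=
  Calc.inter_of_ch hp C.toCalc (C'.map k hk) W (fun y => by rw [C.Phi_ch]; exact h y) hf

/-- the intertwining theorem for the unbounded calculus -/
theorem intertwine_Psi (hp : IsPair pr) (C' : Calc X' H') {k : X' → X} (hk : Measurable k)
    (W : H →L[ℂ] H') {v : H} (h : ∀ y, W (U y v) = C'.Phi (fun p => ch pr y (k p)) (W v))
    {f : X → ℂ} (hf : C.Dom f v) :
    C'.Dom (fun p => f (k p)) (W v) ∧ C'.Psi (fun p => f (k p)) (W v) = W (C.Psi f v) :=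
  Calc.Psi_intertwine hk (fun _ hg => C.intertwine hp C' hk W h hg) hf

/-- uniqueness of the calculus -/
theorem Phi_unique (hp : IsPair pr) (C' : BC pr U) {f : X → ℂ} (hf : Bd f) :
    C.Phi f = C'.Phi f := by
  ext v
  exact C.intertwine hp C'.toCalc measurable_id (ContinuousLinearMap.id ℂ H)
    (fun y => (C'.Phi_ch y v).symm) hf

/-- operators that commute with the representation on the orbit of `v` commute with the calculus -/
theorem commute (hp : IsPair pr) (W : H →L[ℂ] H) {v : H} (h : ∀ y, W (U y v) = U y (W v))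
    {f : X → ℂ} (hf : Bd f) : W (C.Phi f v) = C.Phi f (W v) :=
  C.intertwine hp C.toCalc measurable_id W (fun y => (h y).trans (C.Phi_ch y _).symm) hf

theorem commute_Psi (hp : IsPair pr) (W : H →L[ℂ] H) {v : H} (h : ∀ y, W (U y v) = U y (W v))
    {f : X → ℂ} (hf : C.Dom f v) : C.Dom f (W v) ∧ C.Psi f (W v) = W (C.Psi f v) :=
  C.intertwine_Psi hp C.toCalc measurable_id W (fun y => (h y).trans (C.Phi_ch y _).symm) hf

section Cov

variable {Y' : Type*} {pr' : X' → Y' → ℝ} {U' : Y' → H' → H'} (C' : BC pr' U')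

/-- **covariance**: `W U(y) = exp (i r y) U'(A y) W` and `pr (k p) y = pr' p (A y) + r y` give
`W f(P) = (f ∘ k)(P') W`. -/
theorem cov_affine (hp : IsPair pr) (hm : ∀ y, Measurable fun p => pr' p y) {k : X' → X}
    (hk : Measurable k) {A : Y → Y'} {r : Y → ℝ} (hA : ∀ p y, pr (k p) y = pr' p (A y) + r y)
    (W : H →L[ℂ] H') {v : H} {w : H'} (h : ∀ y, W (U y v) = cexp (I * r y) • U' (A y) w)
    {f : X → ℂ} (hf : Bd f) : W (C.Phi f v) = C'.Phi (fun p => f (k p)) w := by
  refine C.intertwine hp C'.toCalc hk W (fun y => ?_) hf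
  have e : (fun p => ch pr y (k p)) = fun p => cexp (I * r y) * ch pr' (A y) p := by
    funext p
    simp only [ch, hA, ofReal_add, mul_add, Complex.exp_add]
    ring
  have hb : Bd (ch pr' (A y)) := Bd.expI (hm _)
  rw [h, e, C'.smul _ hb, ← C'.Phi_ch]
  rfl

/-- **covariance**: `W U(y) = U'(A y) W` and `pr (k p) y = pr' p (A y)` give
`W f(P) = (f ∘ k)(P') W`. -/
theorem cov (hp : IsPair pr) {k : X' → X} (hk : Measurable k) {A : Y → Y'}
    (hA : ∀ p y, pr (k p) y = pr' p (A y)) (W : H →L[ℂ] H') {v : H} {w : H'}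
    (h : ∀ y, W (U y v) = U' (A y) w) {f : X → ℂ} (hf : Bd f) :
    W (C.Phi f v) = C'.Phi (fun p => f (k p)) w := by
  refine C.intertwine hp C'.toCalc hk W (fun y => ?_) hf
  rw [h, ← C'.Phi_ch]
  simp only [ch, hA]
  rfl

theorem cov_Psi (hp : IsPair pr) {k : X' → X} (hk : Measurable k) {A : Y → Y'}
    (hA : ∀ p y, pr (k p) y = pr' p (A y)) (W : H →L[ℂ] H') {v : H}
    (h : ∀ y, W (U y v) = U' (A y) (W v)) {f : X → ℂ} (hf : C.Dom f v) :
    C'.Dom (fun p => f (k p)) (W v) ∧ C'.Psi (fun p => f (k p)) (W v) = W (C.Psi f v) :=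
  Calc.Psi_intertwine hk (fun _ hg => C.cov C' hp hk hA W h hg) hf

/-- antilinear covariance: `W U(y) = U'(A y) W` and `pr (k p) y = - pr' p (A y)` -/
theorem cov_anti (hp : IsPair pr) {k : X' → X} (hk : Measurable k) {A : Y → Y'}
    (hA : ∀ p y, pr (k p) y = -pr' p (A y)) (W : H →L⋆[ℂ] H') {v : H} {w : H'}
    (h : ∀ y, W (U y v) = U' (A y) w) {f : X → ℂ} (hf : Bd f) :
    W (C.Phi f v) = C'.Phi (fun p => conj (f (k p))) w := by
  refine C.intertwine_anti hp C'.toCalc hk W (fun y => ?_) hf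
  rw [h, ← C'.Phi_ch]
  simp only [ch, hA, ← exp_conj, map_mul, conj_I, conj_ofReal, ofReal_neg, mul_neg, neg_mul,
    map_neg, neg_neg]
  rfl

end Cov

/-- restriction to a subgroup: the calculus of `y ↦ U' (A y)` is the push forward -/
def restrict {Y' : Type*} {pr' : X' → Y' → ℝ} {U' : Y' → H' → H'} (C' : BC pr' U')
    (pr : X → Y → ℝ) {k : X' → X} (hk : Measurable k) (A : Y → Y')
    (hA : ∀ p y, pr (k p) y = pr' p (A y)) : BC pr fun y => U' (A y) where
  toCalc := C'.toCalc.map k hk
  Phi_ch y v := by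
    rw [Calc.map_Phi, ← C'.Phi_ch]
    simp only [ch, hA]
    rfl

/-- the spectral measures under unitary covariance -/
theorem nu_cov {Y' : Type*} {pr' : X' → Y' → ℝ} {U' : Y' → H' → H'} (C' : BC pr' U')
    (hp : IsPair pr) {k : X' → X} (hk : Measurable k) {A : Y → Y'}
    (hA : ∀ p y, pr (k p) y = pr' p (A y)) {v : H} {w : H'}
    (h : ∀ y, Inner.inner ℂ v (U y v) = Inner.inner ℂ w (U' (A y) w)) :
    (C'.nu w).map k = C.nu v :=
  C.nu_unique hp fun y => ((C'.restrict pr hk A hA).char hp w y).trans (h y).symm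

/-- the translates of `v` have the same spectral measure -/
lemma nu_U (hp : IsPair pr) (y : Y) (v : H) : C.nu (U y v) = C.nu v := by
  rw [← C.Phi_ch, C.nu_Phi (hp.bd y)]
  simp [norm_ch]

lemma U_Phi (hp : IsPair pr) (y : Y) {f : X → ℂ} (hf : Bd f) (v : H) :
    U y (C.Phi f v) = C.Phi (fun p => ch pr y p * f p) v := by
  rw [C.mul_apply (hp.bd y) hf, C.Phi_ch]

lemma Phi_U (hp : IsPair pr) (y : Y) {f : X → ℂ} (hf : Bd f) (v : H) :
    C.Phi f (U y v) = U y (C.Phi f v) := by
  rw [← C.Phi_ch, ← C.Phi_ch, C.comm hf (hp.bd y)]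

lemma dom_U (hp : IsPair pr) (y : Y) {f : X → ℂ} {v : H} : C.Dom f (U y v) ↔ C.Dom f v := by
  simp only [Calc.Dom, C.nu_U hp]

lemma U_Psi (hp : IsPair pr) (y : Y) {f : X → ℂ} {v : H} (hf : C.Dom f v) :
    U y (C.Psi f v) = C.Psi (fun p => ch pr y p * f p) v := by
  rw [← C.Phi_ch, Calc.Phi_Psi (hp.bd y) hf]

lemma Psi_U (hp : IsPair pr) (y : Y) {f : X → ℂ} {v : H} (hf : C.Dom f v) :
    C.Psi f (U y v) = U y (C.Psi f v) := by
  rw [← C.Phi_ch, ← C.Phi_ch, Calc.Psi_Phi_comm hf (hp.bd y)]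

/-- invariant vectors: `v` is invariant iff its measure is carried by the zero set -/
lemma inv_iff (hp : IsPair pr) (y : Y) (v : H) :
    U y v = v ↔ ∀ᵐ p ∂C.nu v, ch pr y p = 1 := by
  constructor
  · intro h
    have h1 := C.dist_sq (hp.bd y) (Bd.const 1) v
    rw [C.Phi_ch, C.one, h, one_apply_eq_self, sub_self, norm_zero,
      zero_pow two_ne_zero, eq_comm, integral_eq_zero_iff_of_nonneg (fun _ => by positivity)
      (memLp_sq (((hp.bd y).sub (Bd.const 1)).memLp _ 2))] at h1
    filter_upwards [h1] with p hp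
    simpa [sub_eq_zero] using hp
  · intro h
    rw [← C.Phi_ch, C.congr_ae (hp.bd y) (Bd.const 1) h, C.one]
    rfl

end BC

end Vale.Agent.P352X.SN

end
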