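import Vale.Agent.P352X.SN.Psi

/-!
# P352X, block SN: perfect pairings, characters and trigonometric polynomials
-/

noncomputable section

open MeasureTheory Filter Topology Complex
open scoped ENNReal NNReal ComplexConjugate

namespace Vale.Agent.P352X.SN

variable {X : Type*} [MeasurableSpace X] {Y : Type*}

/-- trigonometric polynomials -/
def tp (pr : X → Y → ℝ) : (Y →₀ ℂ) →ₗ[ℂ] X → ℂ := Finsupp.linearCombination ℂ (ch pr)

omit [MeasurableSpace X] in
lemma tp_single (pr : X → Y → ℝ) (y : Y) (c : ℂ) :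
    tp pr (Finsupp.single y c) = fun p => c * ch pr y p := by
  rw [tp, Finsupp.linearCombination_single]
  rfl

omit [MeasurableSpace X] in
lemma tp_add (pr : X → Y → ℝ) (c d : Y →₀ ℂ) :
    tp pr (c + d) = fun p => tp pr c p + tp pr d p := by
  rw [map_add]
  rfl

omit [MeasurableSpace X] in
lemma tp_sub (pr : X → Y → ℝ) (c d : Y →₀ ℂ) :
    tp pr (c - d) = fun p => tp pr c p - tp pr d p := by
  rw [map_sub]
  rfl

omit [MeasurableSpace X] in
lemma tp_zero (pr : X → Y → ℝ) : tp pr 0 = fun _ => 0 := by
  rw [map_zero]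
  rfl

omit [MeasurableSpace X] in
lemma norm_ch (pr : X → Y → ℝ) (y : Y) (p : X) : ‖ch pr y p‖ = 1 := by
  rw [ch, mul_comm, norm_exp_ofReal_mul_I]

/-- approximation in the mean by trigonometric polynomials -/
def Appr (pr : X → Y → ℝ) (μ : Measure X) (c : ℕ → Y →₀ ℂ) (f : X → ℂ) : Prop :=
  Tendsto (fun n => ∫ p, ‖tp pr (c n) p - f p‖ ^ 2 ∂μ) atTop (𝓝 0)

variable [AddCommGroup Y] [Module ℝ Y] [TopologicalSpace Y] {pr : X → Y → ℝ}

namespace IsPair

lemma meas (hp : IsPair pr) (y : Y) : Measurable fun p => pr p y := by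
  obtain ⟨n, a, b, h⟩ := hp
  simp_rw [h]
  exact (continuous_id.inner continuous_const).measurable.comp a.measurable

lemma add (hp : IsPair pr) (p : X) (x y : Y) : pr p (x + y) = pr p x + pr p y := by
  obtain ⟨n, a, b, h⟩ := hp
  simp_rw [h, map_add, inner_add_right]

lemma smul (hp : IsPair pr) (p : X) (t : ℝ) (y : Y) : pr p (t • y) = t * pr p y := by
  obtain ⟨n, a, b, h⟩ := hp
  simp_rw [h, map_smul, real_inner_smul_right]

lemma zero (hp : IsPair pr) (p : X) : pr p 0 = 0 := by
  simpa using hp.smul p 0 0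

lemma neg (hp : IsPair pr) (p : X) (y : Y) : pr p (-y) = -pr p y := by
  simpa using hp.smul p (-1) y

lemma sub (hp : IsPair pr) (p : X) (x y : Y) : pr p (x - y) = pr p x - pr p y := by
  rw [sub_eq_add_neg, hp.add, hp.neg, sub_eq_add_neg]

lemma cont (hp : IsPair pr) (p : X) : Continuous (pr p) := by
  obtain ⟨n, a, b, h⟩ := hp
  have : pr p = fun y => inner ℝ (a p) (b y) := funext (h p)
  rw [this]
  fun_prop

lemma bd (hp : IsPair pr) (y : Y) : Bd (ch pr y) := Bd.expI (hp.meas y)

lemma ch_add (hp : IsPair pr) (x y : Y) (p : X) : ch pr (x + y) p = ch pr x p * ch pr y p := by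
  simp only [ch, hp.add, ofReal_add, mul_add, Complex.exp_add]

lemma ch_zero (hp : IsPair pr) (p : X) : ch pr 0 p = 1 := by
  simp [ch, hp.zero]

lemma ch_neg (hp : IsPair pr) (y : Y) (p : X) : ch pr (-y) p = conj (ch pr y p) := by
  simp only [ch, hp.neg, ← exp_conj, map_mul, conj_I, conj_ofReal, ofReal_neg, mul_neg, neg_mul]

lemma ch_sub (hp : IsPair pr) (x y : Y) (p : X) :
    ch pr (x - y) p = conj (ch pr y p) * ch pr x p := by
  rw [sub_eq_neg_add, hp.ch_add, hp.ch_neg]

lemma tp_bd (hp : IsPair pr) (c : Y →₀ ℂ) : Bd (tp pr c) := by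
  induction c using Finsupp.induction_linear with
  | zero => rw [tp_zero]; exact Bd.const 0
  | add c d hc hd => rw [tp_add]; exact hc.add hd
  | single y c => rw [tp_single]; exact (hp.bd y).smul c

/-- finite measures are determined by their Fourier transforms -/
theorem meas_ext (hp : IsPair pr) {μ ν : Measure X} [IsFiniteMeasure μ] [IsFiniteMeasure ν]
    (h : ∀ y, ∫ p, ch pr y p ∂μ = ∫ p, ch pr y p ∂ν) : μ = ν := by
  obtain ⟨n, a, b, e⟩ := hp
  apply a.map_measurableEquiv_injective
  refine Measure.ext_of_charFun (funext fun t => ?_)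
  rw [charFun_apply, charFun_apply, integral_map_equiv, integral_map_equiv]
  have := h (b.symm t)
  simp only [ch, e, ContinuousLinearEquiv.apply_symm_apply, mul_comm I] at this
  exact this

variable {H : Type*} [NormedAddCommGroup H] [InnerProductSpace ℂ H] [CompleteSpace H]

/-- **Bochner's theorem** for the pairing -/
theorem bochner (hp : IsPair pr) {U : Y → H → H} (hU : URep U) (v : H) :
    ∃ ν : Measure X, IsFiniteMeasure ν ∧ ∀ y, ∫ p, ch pr y p ∂ν = inner ℂ v (U y v) := by
  obtain ⟨n, a, b, e⟩ := hp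
  have hU' : URep fun t => U (b.symm t) :=
    ⟨fun v => by rw [map_zero, hU.zero], fun x y v => by rw [map_add, hU.add],
      fun x v w => hU.inn _ _ _, fun v => (hU.cont v).comp b.symm.continuous⟩
  obtain ⟨ν, hν, h⟩ := SN.bochner hU' v
  refine ⟨ν.map a.symm, inferInstance, fun y => ?_⟩
  rw [integral_map_equiv]
  have := h (b y)
  rw [charFun_apply, b.symm_apply_apply] at this
  rw [← this]
  simp only [ch, e, MeasurableEquiv.apply_symm_apply, mul_comm I]

lemma ae_zero_real (hp : IsPair pr) {μ : Measure X} {r : X → ℝ} (hr : Integrable r μ)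
    (h : ∀ y, ∫ p, ch pr y p * r p ∂μ = 0) : r =ᵐ[μ] 0 := by
  have hf1 := isFiniteMeasure_withDensity_ofReal hr.2
  have hf2 := isFiniteMeasure_withDensity_ofReal hr.neg.2
  have hm1 : AEMeasurable (fun p => ENNReal.ofReal (r p)) μ := hr.aemeasurable.ennreal_ofReal
  have hm2 : AEMeasurable (fun p => ENNReal.ofReal ((-r) p)) μ := hr.neg.aemeasurable.ennreal_ofReal
  have key : (μ.withDensity fun p => ENNReal.ofReal (r p)) =
      μ.withDensity fun p => ENNReal.ofReal ((-r) p) := by
    refine hp.meas_ext fun y => ?_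
    rw [integral_withDensity_eq_integral_toReal_smul₀ hm1
      (Eventually.of_forall fun _ => ENNReal.ofReal_lt_top),
      integral_withDensity_eq_integral_toReal_smul₀ hm2
      (Eventually.of_forall fun _ => ENNReal.ofReal_lt_top), ← sub_eq_zero, ← integral_sub, ← h y]
    · refine integral_congr_ae (Eventually.of_forall fun p => ?_)
      simp only [ENNReal.toReal_ofReal', Pi.neg_apply, real_smul]
      rw [← sub_mul, ← ofReal_sub, max_zero_sub_max_neg_zero_eq_self, mul_comm]
    · simp only [ENNReal.toReal_ofReal']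
      exact hr.pos_part.smul_of_top_left (memLp_top_of_bound (hp.bd y).1.aestronglyMeasurable 1
        (Eventually.of_forall fun p => (norm_ch pr y p).le))
    · simp only [ENNReal.toReal_ofReal']
      exact hr.neg.pos_part.smul_of_top_left (memLp_top_of_bound
        (hp.bd y).1.aestronglyMeasurable 1 (Eventually.of_forall fun p => (norm_ch pr y p).le))
  rw [withDensity_eq_iff hm1 hm2 (by
    have := hf1.measure_univ_lt_top.ne
    rwa [withDensity_apply _ MeasurableSet.univ, Measure.restrict_univ] at this)] at key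
  filter_upwards [key] with p hp
  have h1 := congrArg ENNReal.toReal hp
  simp only [ENNReal.toReal_ofReal', Pi.neg_apply] at h1
  have h2 := max_zero_sub_max_neg_zero_eq_self (r p)
  rw [h1, sub_self] at h2
  exact h2.symm

/-- integrable functions are determined by their Fourier transforms -/
theorem ae_zero (hp : IsPair pr) {μ : Measure X} {g : X → ℂ} (hg : Integrable g μ)
    (h : ∀ y, ∫ p, ch pr y p * g p ∂μ = 0) : g =ᵐ[μ] 0 := by
  have hI : ∀ y {g : X → ℂ}, Integrable g μ → Integrable (fun p => ch pr y p * g p) μ :=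
    fun y g hg => hg.bdd_mul (c := 1) (hp.bd y).1.aestronglyMeasurable
      (Eventually.of_forall fun p => (norm_ch pr y p).le)
  have hg' : Integrable (fun p => conj (g p)) μ :=
    hg.mono (continuous_conj.comp_aestronglyMeasurable hg.1)
      (Eventually.of_forall fun p => by rw [RCLike.norm_conj])
  have h' : ∀ y, ∫ p, ch pr y p * conj (g p) ∂μ = 0 := fun y => by
    have := congrArg conj (h (-y))
    rw [← integral_conj, map_zero] at this
    simpa only [hp.ch_neg, map_mul, conj_conj] using this
  have h1 := hp.ae_zero_real hg.re fun y => by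
    have : ∫ p, ch pr y p * (RCLike.re (g p) : ℝ) ∂μ =
        ∫ p, (2⁻¹ : ℂ) * (ch pr y p * g p + ch pr y p * conj (g p)) ∂μ := by
      refine integral_congr_ae (Eventually.of_forall fun p => ?_)
      simp only [RCLike.re_to_complex]
      rw [← mul_add, add_conj]
      push_cast
      ring
    rw [this, integral_const_mul, integral_add (hI y hg) (hI y hg'), h, h', add_zero, mul_zero]
  have h2 := hp.ae_zero_real hg.im fun y => by
    have : ∫ p, ch pr y p * (RCLike.im (g p) : ℝ) ∂μ =
        ∫ p, (-I / 2 : ℂ) * (ch pr y p * g p - ch pr y p * conj (g p)) ∂μ := by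
      refine integral_congr_ae (Eventually.of_forall fun p => ?_)
      simp only [RCLike.im_to_complex]
      rw [← mul_sub, sub_conj]
      push_cast
      linear_combination (ch pr y p * (g p).im) * I_mul_I
    rw [this, integral_const_mul, integral_sub (hI y hg) (hI y hg'), h, h', sub_zero, mul_zero]
  filter_upwards [h1, h2] with p a b
  exact Complex.ext a b

/-- **the trigonometric polynomials are dense in the mean** -/
theorem appr (hp : IsPair pr) {μ : Measure X} [IsFiniteMeasure μ] {f : X → ℂ}
    (hf : MemLp f 2 μ) : ∃ c, Appr pr μ c f := by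
  let e : (Y →₀ ℂ) →ₗ[ℂ] Lp ℂ 2 μ :=
    { toFun := fun c => ((hp.tp_bd c).memLp μ 2).toLp _
      map_add' := fun c d => by
        rw [← MemLp.toLp_add]
        congr 1
        exact map_add _ _ _
      map_smul' := fun a c => by
        rw [RingHom.id_apply, ← MemLp.toLp_const_smul]
        congr 1
        exact map_smul _ _ _ }
  have hd : (LinearMap.range e).topologicalClosure = ⊤ := by
    rw [Submodule.topologicalClosure_eq_top_iff, Submodule.eq_bot_iff]
    intro g hg
    have h1 := hp.ae_zero ((Lp.memLp g).integrable (by norm_num)) fun y => by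
      have h2 := hg _ ⟨Finsupp.single (-y) 1, rfl⟩
      rw [← Lp.toLp_coeFn g (Lp.memLp g)] at h2
      have h3 := (l2_inner ((hp.tp_bd _).memLp μ 2) _).symm.trans h2
      simpa only [tp_single, one_mul, hp.ch_neg, conj_conj] using h3
    exact Lp.ext (h1.trans (Lp.coeFn_zero _ _ _).symm)
  have h1 : hf.toLp f ∈ closure (Set.range e) := by
    have : hf.toLp f ∈ (LinearMap.range e).topologicalClosure := hd ▸ Submodule.mem_top
    exact this
  obtain ⟨x, hx, hl⟩ := mem_closure_iff_seq_limit.1 h1
  choose c hc using hx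
  refine ⟨c, ?_⟩
  have h2 := ((tendsto_iff_norm_sub_tendsto_zero.1 hl).pow 2)
  rw [zero_pow two_ne_zero] at h2
  refine h2.congr fun n => ?_
  rw [← hc, ← l2_dist_sq ((hp.tp_bd _).memLp μ 2) hf]
  rfl

lemma appr_mono (hp : IsPair pr) {μ ν : Measure X} [IsFiniteMeasure ν] {f : X → ℂ}
    (hf : MemLp f 2 ν) {c : ℕ → Y →₀ ℂ} (h : Appr pr ν c f) (hle : μ ≤ ν) : Appr pr μ c f :=
  squeeze_zero (fun _ => integral_nonneg fun _ => by positivity)
    (fun n => integral_mono_measure hle (Eventually.of_forall fun _ => by positivity)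
      (memLp_sq (((hp.tp_bd (c n)).memLp ν 2).sub hf))) h

lemma appr_toLp (hp : IsPair pr) {μ : Measure X} [IsFiniteMeasure μ] {f : X → ℂ}
    (hf : MemLp f 2 μ) {c : ℕ → Y →₀ ℂ} (h : Appr pr μ c f) :
    Tendsto (fun n => ((hp.tp_bd (c n)).memLp μ 2).toLp _) atTop (𝓝 (hf.toLp f)) := by
  rw [tendsto_iff_norm_sub_tendsto_zero]
  refine tendsto_of_sq_tendsto (fun _ => norm_nonneg _) (Tendsto.congr (fun n => ?_) h)
  rw [l2_dist_sq]

end IsPair

end Vale.Agent.P352X.SN

end
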