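import Vale.Agent.P352X.SN.Defs

/-!
# P352X, block SN: the unbounded Borel calculus
-/

noncomputable section

open MeasureTheory Filter Topology Complex
open scoped ENNReal NNReal ComplexConjugate

namespace Vale.Agent.P352X.SN

variable {X : Type*} [MeasurableSpace X]

lemma l2_inner {μ : Measure X} {f g : X → ℂ} (hf : MemLp f 2 μ) (hg : MemLp g 2 μ) :
    inner ℂ (hf.toLp f) (hg.toLp g) = ∫ p, conj (f p) * g p ∂μ := by
  rw [L2.inner_def]
  refine integral_congr_ae ?_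
  filter_upwards [hf.coeFn_toLp, hg.coeFn_toLp] with p h1 h2
  rw [h1, h2, RCLike.inner_apply', mul_comm]

lemma l2_norm_sq {μ : Measure X} {f : X → ℂ} (hf : MemLp f 2 μ) :
    ‖hf.toLp f‖ ^ 2 = ∫ p, ‖f p‖ ^ 2 ∂μ := by
  have h := l2_inner hf hf
  simp_rw [conj_mul_self] at h
  rw [inner_self_eq_norm_sq_to_K, integral_complex_ofReal] at h
  refine ofReal_injective ?_
  rw [← h]
  push_cast
  rfl

lemma l2_dist_sq {μ : Measure X} {f g : X → ℂ} (hf : MemLp f 2 μ) (hg : MemLp g 2 μ) :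
    ‖hf.toLp f - hg.toLp g‖ ^ 2 = ∫ p, ‖f p - g p‖ ^ 2 ∂μ := by
  rw [← MemLp.toLp_sub, l2_norm_sq]
  rfl

lemma integrable_conj_mul {μ : Measure X} {f g : X → ℂ} (hf : MemLp f 2 μ) (hg : MemLp g 2 μ) :
    Integrable (fun p => conj (f p) * g p) μ := by
  have h1 : MemLp (fun p => conj (f p)) 2 μ :=
    hf.of_le (continuous_conj.comp_aestronglyMeasurable hf.1)
      (Eventually.of_forall fun p => by rw [RCLike.norm_conj])
  exact h1.integrable_mul hg

lemma tendsto_of_sq_tendsto {ι : Type*} {l : Filter ι} {a : ι → ℝ} (ha : ∀ i, 0 ≤ a i)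
    (h : Tendsto (fun i => a i ^ 2) l (𝓝 0)) : Tendsto a l (𝓝 0) := by
  have h1 := (Real.continuous_sqrt.tendsto 0).comp h
  rw [Real.sqrt_zero] at h1
  refine h1.congr fun i => ?_
  simp [Real.sqrt_sq (ha i)]

/-- dominated convergence in the mean -/
lemma sq_tendsto_of_dom {ι : Type*} {l : Filter ι} [l.IsCountablyGenerated] {μ : Measure X}
    {F : ι → X → ℂ} {f : X → ℂ} {G : X → ℝ} (hF : ∀ i, Measurable (F i)) (hf : MemLp f 2 μ)
    (hG : MemLp G 2 μ) (hb : ∀ᶠ i in l, ∀ᵐ p ∂μ, ‖F i p‖ ≤ G p)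
    (h : ∀ᵐ p ∂μ, Tendsto (fun i => F i p) l (𝓝 (f p))) :
    Tendsto (fun i => ∫ p, ‖F i p - f p‖ ^ 2 ∂μ) l (𝓝 0) := by
  have h0 : (0 : ℝ) = ∫ _ : X, (0 : ℝ) ∂μ := by simp
  rw [h0]
  have hI : Integrable (fun p => (G p + ‖f p‖) ^ 2) μ := (hG.add hf.norm).integrable_sq
  refine tendsto_integral_filter_of_dominated_convergence _
    (Eventually.of_forall fun i => ?_) ?_ hI ?_
  · exact ((hF i).aestronglyMeasurable.sub hf.1).norm.pow 2
  · filter_upwards [hb] with i hi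
    filter_upwards [hi] with p hp
    rw [Real.norm_of_nonneg (by positivity)]
    exact pow_le_pow_left₀ (norm_nonneg _) ((norm_sub_le _ _).trans (add_le_add hp le_rfl)) 2
  · filter_upwards [h] with p hp
    have h1 := ((hp.sub_const (f p)).norm).pow 2
    simpa using h1

variable {H : Type*} [NormedAddCommGroup H] [InnerProductSpace ℂ H] [CompleteSpace H]

namespace Calc

variable {C : Calc X H} {f g : X → ℂ} {v w : H}

lemma trunc_set (hf : Measurable f) (n : ℕ) : MeasurableSet {p | ‖f p‖ ≤ n} :=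
  measurableSet_le hf.norm measurable_const

lemma trunc_bd (hf : Measurable f) (n : ℕ) : Bd (trunc f n) := by
  refine ⟨hf.indicator (trunc_set hf n), n, fun p => ?_⟩
  by_cases hp : ‖f p‖ ≤ n
  · rw [trunc, Set.indicator_of_mem (by exact hp)]; exact hp
  · rw [trunc, Set.indicator_of_notMem (by exact hp)]; simp

omit [MeasurableSpace X] in
lemma norm_trunc_le (f : X → ℂ) (n : ℕ) (p : X) : ‖trunc f n p‖ ≤ ‖f p‖ :=
  norm_indicator_le_norm_self _ _

omit [MeasurableSpace X] in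
lemma trunc_eventually (f : X → ℂ) (p : X) : ∀ᶠ n : ℕ in atTop, trunc f n p = f p := by
  filter_upwards [tendsto_natCast_atTop_atTop.eventually_ge_atTop ‖f p‖] with n hn
  exact Set.indicator_of_mem (by exact hn) _

omit [MeasurableSpace X] in
lemma trunc_tendsto (f : X → ℂ) (p : X) : Tendsto (fun n => trunc f n p) atTop (𝓝 (f p)) :=
  tendsto_const_nhds.congr' ((trunc_eventually f p).mono fun _ h => h.symm)

omit [MeasurableSpace X] in
lemma trunc_conj (f : X → ℂ) (n : ℕ) :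
    trunc (fun p => conj (f p)) n = fun p => conj (trunc f n p) := by
  funext p
  by_cases hp : ‖f p‖ ≤ n <;> simp [trunc, hp]

lemma Dom.of_bd (hf : Bd f) (v : H) : C.Dom f v := ⟨hf.1, hf.memLp _ 2⟩

lemma Dom.of_le (hg : C.Dom g v) (hf : Measurable f) {K : ℝ}
    (h : ∀ᵐ p ∂C.nu v, ‖f p‖ ≤ K * ‖g p‖) : C.Dom f v :=
  ⟨hf, hg.2.of_le_mul hf.aestronglyMeasurable h⟩

lemma Dom.add (hf : C.Dom f v) (hg : C.Dom g v) : C.Dom (fun p => f p + g p) v :=
  ⟨hf.1.add hg.1, hf.2.add hg.2⟩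

lemma Dom.sub (hf : C.Dom f v) (hg : C.Dom g v) : C.Dom (fun p => f p - g p) v :=
  ⟨hf.1.sub hg.1, hf.2.sub hg.2⟩

lemma Dom.neg (hf : C.Dom f v) : C.Dom (fun p => -f p) v := ⟨hf.1.neg, hf.2.neg⟩

lemma Dom.smul (c : ℂ) (hf : C.Dom f v) : C.Dom (fun p => c * f p) v :=
  ⟨hf.1.const_mul c, hf.2.const_mul c⟩

lemma Dom.cj (hf : C.Dom f v) : C.Dom (fun p => conj (f p)) v :=
  hf.of_le (continuous_conj.measurable.comp hf.1) (K := 1)
    (Eventually.of_forall fun p => by simp)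

lemma Dom.bd_mul (hg : Bd g) (hf : C.Dom f v) : C.Dom (fun p => g p * f p) v := by
  obtain ⟨K, -, hK⟩ := hg.nonneg_bound
  refine hf.of_le (hg.1.mul hf.1) (K := K) (Eventually.of_forall fun p => ?_)
  rw [norm_mul]
  exact mul_le_mul_of_nonneg_right (hK p) (norm_nonneg _)

lemma Dom.add_vec (hv : C.Dom f v) (hw : C.Dom f w) : C.Dom f (v + w) :=
  ⟨hv.1, C.memLp_add hv.2 hw.2⟩

lemma Dom.smul_vec (c : ℂ) (hv : C.Dom f v) : C.Dom f (c • v) := ⟨hv.1, C.memLp_smul c hv.2⟩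

lemma Dom.neg_vec (hv : C.Dom f v) : C.Dom f (-v) := by
  simpa using hv.smul_vec (-1)

lemma Dom.sub_vec (hv : C.Dom f v) (hw : C.Dom f w) : C.Dom f (v - w) := by
  rw [sub_eq_add_neg]
  exact hv.add_vec hw.neg_vec

lemma Dom.zero_vec (hf : Measurable f) : C.Dom f 0 := ⟨hf, by rw [C.nu_zero]; simp⟩

lemma Dom.integrable_sq (hf : C.Dom f v) : Integrable (fun p => ‖f p‖ ^ 2) (C.nu v) :=
  memLp_sq hf.2

lemma Dom.integrable (hf : C.Dom f v) : Integrable f (C.nu v) :=
  hf.2.integrable (by norm_num)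

lemma dom_iff (hf : Measurable f) : C.Dom f v ↔ Integrable (fun p => ‖f p‖ ^ 2) (C.nu v) :=
  ⟨fun h => h.integrable_sq,
    fun h => ⟨hf, (memLp_two_iff_integrable_sq_norm hf.aestronglyMeasurable).2 h⟩⟩

lemma trunc_sq_tendsto (hf : C.Dom f v) :
    Tendsto (fun n => ∫ p, ‖trunc f n p - f p‖ ^ 2 ∂C.nu v) atTop (𝓝 0) :=
  sq_tendsto_of_dom (fun n => (trunc_bd hf.1 n).1) hf.2 hf.2.norm
    (Eventually.of_forall fun n => Eventually.of_forall (norm_trunc_le f n))
    (Eventually.of_forall (trunc_tendsto f))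

lemma toLp_trunc (hf : C.Dom f v) :
    Tendsto (fun n => ((trunc_bd hf.1 n).memLp (C.nu v) 2).toLp _) atTop (𝓝 (hf.2.toLp f)) := by
  rw [tendsto_iff_norm_sub_tendsto_zero]
  refine tendsto_of_sq_tendsto (fun _ => norm_nonneg _) ?_
  simp_rw [l2_dist_sq]
  exact trunc_sq_tendsto hf

lemma dist_Phi (hf : Bd f) (hg : Bd g) (v : H) : dist (C.Phi f v) (C.Phi g v) =
    dist ((hf.memLp (C.nu v) 2).toLp f) ((hg.memLp (C.nu v) 2).toLp g) := by
  rw [dist_eq_norm, dist_eq_norm]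
  refine (pow_left_inj₀ (norm_nonneg _) (norm_nonneg _) two_ne_zero).1 ?_
  rw [C.dist_sq hf hg, l2_dist_sq]

/-- the truncations converge -/
theorem tendsto_trunc (hf : C.Dom f v) :
    Tendsto (fun n => C.Phi (trunc f n) v) atTop (𝓝 (C.Psi f v)) := by
  refine CauchySeq.tendsto_limUnder ?_
  have h := (toLp_trunc hf).cauchySeq
  rw [Metric.cauchySeq_iff] at h ⊢
  intro ε hε
  obtain ⟨N, hN⟩ := h ε hε
  refine ⟨N, fun m hm n hn => ?_⟩
  rw [dist_Phi (trunc_bd hf.1 m) (trunc_bd hf.1 n)]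
  exact hN m hm n hn

lemma Psi_bd (hf : Bd f) (v : H) : C.Psi f v = C.Phi f v := by
  refine tendsto_nhds_unique (tendsto_trunc (Dom.of_bd hf v)) ?_
  exact C.tendsto_of_sq (trunc_bd hf.1) hf (trunc_sq_tendsto (Dom.of_bd hf v))

lemma inner_Psi (hf : C.Dom f v) (hg : C.Dom g v) :
    Inner.inner ℂ (C.Psi f v) (C.Psi g v) = ∫ p, conj (f p) * g p ∂C.nu v := by
  rw [← l2_inner hf.2 hg.2]
  refine tendsto_nhds_unique ((tendsto_trunc hf).inner (𝕜 := ℂ) (tendsto_trunc hg)) ?_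
  refine ((toLp_trunc hf).inner (𝕜 := ℂ) (toLp_trunc hg)).congr fun n => ?_
  rw [l2_inner, C.inner_Phi (trunc_bd hf.1 n) (trunc_bd hg.1 n)]

lemma inner_Psi_self (hf : C.Dom f v) :
    Inner.inner ℂ v (C.Psi f v) = ∫ p, f p ∂C.nu v := by
  have h := inner_Psi (Dom.of_bd (Bd.const 1) v) hf
  rw [Psi_bd (Bd.const 1), C.one] at h
  simpa using h

lemma inner_Phi_Psi (hg : Bd g) (hf : C.Dom f v) :
    Inner.inner ℂ (C.Phi g v) (C.Psi f v) = ∫ p, conj (g p) * f p ∂C.nu v := by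
  rw [← Psi_bd hg, inner_Psi (Dom.of_bd hg v) hf]

lemma norm_Psi_sq (hf : C.Dom f v) : ‖C.Psi f v‖ ^ 2 = ∫ p, ‖f p‖ ^ 2 ∂C.nu v := by
  have h := inner_Psi hf hf
  simp_rw [conj_mul_self] at h
  rw [inner_self_eq_norm_sq_to_K, integral_complex_ofReal] at h
  refine ofReal_injective ?_
  rw [← h]
  push_cast
  rfl

lemma dist_Psi_sq (hf : C.Dom f v) (hg : C.Dom g v) :
    ‖C.Psi f v - C.Psi g v‖ ^ 2 = ∫ p, ‖f p - g p‖ ^ 2 ∂C.nu v := by
  rw [← l2_dist_sq hf.2 hg.2]
  refine tendsto_nhds_unique (((tendsto_trunc hf).sub (tendsto_trunc hg)).norm.pow 2) ?_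
  refine (((toLp_trunc hf).sub (toLp_trunc hg)).norm.pow 2).congr fun n => ?_
  rw [l2_dist_sq, C.dist_sq (trunc_bd hf.1 n) (trunc_bd hg.1 n)]

lemma norm_Psi_le (hg : C.Dom g v) (hf : Measurable f) {K : ℝ} (hK : 0 ≤ K)
    (h : ∀ᵐ p ∂C.nu v, ‖f p‖ ≤ K * ‖g p‖) : ‖C.Psi f v‖ ≤ K * ‖C.Psi g v‖ := by
  have hf' := hg.of_le hf h
  refine (pow_le_pow_iff_left₀ (norm_nonneg _) (by positivity) two_ne_zero).1 ?_
  rw [norm_Psi_sq hf', mul_pow, norm_Psi_sq hg, ← integral_const_mul]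
  refine integral_mono_ae hf'.integrable_sq (hg.integrable_sq.const_mul _) ?_
  filter_upwards [h] with p hp
  rw [← mul_pow]
  exact pow_le_pow_left₀ (norm_nonneg _) hp 2

lemma Psi_congr_ae (hf : C.Dom f v) (hg : Measurable g) (h : f =ᵐ[C.nu v] g) :
    C.Psi f v = C.Psi g v := by
  have hg' : C.Dom g v := ⟨hg, hf.2.ae_eq h⟩
  have h1 := dist_Psi_sq hf hg'
  have h2 : ∫ p, ‖f p - g p‖ ^ 2 ∂C.nu v = 0 := by
    refine integral_eq_zero_of_ae ?_
    filter_upwards [h] with p hp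
    simp [hp]
  rw [h2] at h1
  exact sub_eq_zero.1 (norm_eq_zero.1 (pow_eq_zero_iff two_ne_zero |>.1 h1))

/-- convergence in the mean -/
lemma tendsto_Psi_of_sq {ι : Type*} {l : Filter ι} {F : ι → X → ℂ} (hF : ∀ᶠ i in l, C.Dom (F i) v)
    (hf : C.Dom f v) (h : Tendsto (fun i => ∫ p, ‖F i p - f p‖ ^ 2 ∂C.nu v) l (𝓝 0)) :
    Tendsto (fun i => C.Psi (F i) v) l (𝓝 (C.Psi f v)) := by
  rw [tendsto_iff_norm_sub_tendsto_zero]
  refine tendsto_of_sq_tendsto (fun _ => norm_nonneg _) (h.congr' ?_)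
  filter_upwards [hF] with i hi
  rw [dist_Psi_sq hi hf]

/-- **dominated convergence** for the unbounded calculus -/
theorem tendsto_Psi {ι : Type*} {l : Filter ι} [l.IsCountablyGenerated] {F : ι → X → ℂ}
    (hF : ∀ i, Measurable (F i)) (hf : C.Dom f v) {G : X → ℝ} (hG : MemLp G 2 (C.nu v))
    (hb : ∀ᶠ i in l, ∀ᵐ p ∂C.nu v, ‖F i p‖ ≤ G p)
    (h : ∀ᵐ p ∂C.nu v, Tendsto (fun i => F i p) l (𝓝 (f p))) :
    Tendsto (fun i => C.Psi (F i) v) l (𝓝 (C.Psi f v)) := by
  refine tendsto_Psi_of_sq ?_ hf (sq_tendsto_of_dom hF hf.2 hG hb h)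
  filter_upwards [hb] with i hi
  refine ⟨hF i, hG.of_le (hF i).aestronglyMeasurable ?_⟩
  filter_upwards [hi] with p hp
  exact hp.trans (le_abs_self _)

/-- bounded approximations -/
lemma tendsto_Phi_Psi {ι : Type*} {l : Filter ι} [l.IsCountablyGenerated] {F : ι → X → ℂ}
    (hF : ∀ i, Bd (F i)) (hf : C.Dom f v) {G : X → ℝ} (hG : MemLp G 2 (C.nu v))
    (hb : ∀ᶠ i in l, ∀ᵐ p ∂C.nu v, ‖F i p‖ ≤ G p)
    (h : ∀ᵐ p ∂C.nu v, Tendsto (fun i => F i p) l (𝓝 (f p))) :
    Tendsto (fun i => C.Phi (F i) v) l (𝓝 (C.Psi f v)) :=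
  (tendsto_Psi (fun i => (hF i).1) hf hG hb h).congr fun i => Psi_bd (hF i) v

lemma Psi_add (hf : C.Dom f v) (hg : C.Dom g v) :
    C.Psi (fun p => f p + g p) v = C.Psi f v + C.Psi g v := by
  refine tendsto_nhds_unique (tendsto_Phi_Psi
    (fun n => (trunc_bd hf.1 n).add (trunc_bd hg.1 n)) (hf.add hg) (hf.2.norm.add hg.2.norm)
    (Eventually.of_forall fun n => Eventually.of_forall fun p =>
      (norm_add_le _ _).trans (add_le_add (norm_trunc_le f n p) (norm_trunc_le g n p)))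
    (Eventually.of_forall fun p => (trunc_tendsto f p).add (trunc_tendsto g p))) ?_
  refine ((tendsto_trunc hf).add (tendsto_trunc hg)).congr fun n => ?_
  rw [C.add (trunc_bd hf.1 n) (trunc_bd hg.1 n)]
  rfl

/-- bounded functions act on the vectors `Psi f v` -/
theorem Phi_Psi (hg : Bd g) (hf : C.Dom f v) :
    C.Phi g (C.Psi f v) = C.Psi (fun p => g p * f p) v := by
  obtain ⟨K, -, hK⟩ := hg.nonneg_bound
  refine tendsto_nhds_unique (((C.Phi g).continuous.tendsto _).comp (tendsto_trunc hf)) ?_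
  refine (tendsto_Phi_Psi (fun n => hg.mul (trunc_bd hf.1 n)) (hf.bd_mul hg)
    (hf.2.norm.const_mul K) (Eventually.of_forall fun n => Eventually.of_forall fun p => ?_)
    (Eventually.of_forall fun p => (trunc_tendsto f p).const_mul (g p))).congr fun n => ?_
  · rw [norm_mul]
    exact mul_le_mul (hK p) (norm_trunc_le f n p) (norm_nonneg _) ((norm_nonneg _).trans (hK p))
  · exact C.mul_apply hg (trunc_bd hf.1 n) v

lemma Psi_smul (c : ℂ) (hf : C.Dom f v) : C.Psi (fun p => c * f p) v = c • C.Psi f v := by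
  rw [← Phi_Psi (Bd.const c) hf, C.const_apply]

lemma Psi_neg (hf : C.Dom f v) : C.Psi (fun p => -f p) v = -C.Psi f v := by
  simpa using Psi_smul (-1) hf

lemma Psi_sub (hf : C.Dom f v) (hg : C.Dom g v) :
    C.Psi (fun p => f p - g p) v = C.Psi f v - C.Psi g v := by
  have h := Psi_add hf hg.neg
  rw [Psi_neg hg] at h
  simpa [sub_eq_add_neg] using h

lemma Dom.sum {ι : Type*} (s : Finset ι) {F : ι → X → ℂ} (h : ∀ i ∈ s, C.Dom (F i) v) :
    C.Dom (fun p => ∑ i ∈ s, F i p) v := by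
  classical
  induction s using Finset.induction_on with
  | empty => simpa using Dom.of_bd (Bd.const (X := X) 0) v
  | insert a s ha ih =>
    simp_rw [Finset.sum_insert ha]
    exact (h a (Finset.mem_insert_self a s)).add
      (ih fun i hi => h i (Finset.mem_insert_of_mem hi))

lemma Psi_sum {ι : Type*} (s : Finset ι) {F : ι → X → ℂ} (h : ∀ i ∈ s, C.Dom (F i) v) :
    C.Psi (fun p => ∑ i ∈ s, F i p) v = ∑ i ∈ s, C.Psi (F i) v := by
  classical
  induction s using Finset.induction_on with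
  | empty =>
    simp only [Finset.sum_empty]
    rw [Psi_bd (Bd.const 0), C.zero]
    rfl
  | insert a s ha ih =>
    simp_rw [Finset.sum_insert ha]
    rw [Psi_add (h a (Finset.mem_insert_self a s))
      (Dom.sum s fun i hi => h i (Finset.mem_insert_of_mem hi)),
      ih fun i hi => h i (Finset.mem_insert_of_mem hi)]

/-- the spectral measures of the vectors `Psi f v` -/
theorem nu_Psi (hf : C.Dom f v) :
    C.nu (C.Psi f v) = (C.nu v).withDensity fun p => ENNReal.ofReal (‖f p‖ ^ 2) := by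
  ext A hA
  rw [C.nu_apply hA, P, Phi_Psi (Bd.ind hA) hf, norm_Psi_sq (hf.bd_mul (Bd.ind hA)),
    withDensity_apply _ hA,
    ← ofReal_integral_eq_lintegral_ofReal hf.integrable_sq.integrableOn
      (Eventually.of_forall fun p => by positivity), ← integral_indicator hA]
  congr 2
  funext p
  by_cases hp : p ∈ A <;> simp [hp]

lemma nu_Psi_ac (hf : C.Dom f v) : C.nu (C.Psi f v) ≪ C.nu v := by
  rw [nu_Psi hf]
  exact withDensity_absolutelyContinuous _ _

/-- the domain of a product -/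
theorem dom_Psi (hg : C.Dom g v) (hf : Measurable f) :
    C.Dom f (C.Psi g v) ↔ C.Dom (fun p => f p * g p) v := by
  rw [dom_iff hf, dom_iff (f := fun p => f p * g p) (hf.mul hg.1), nu_Psi hg,
    integrable_withDensity_iff_integrable_smul' (hg.1.norm.pow_const 2).ennreal_ofReal
      (Eventually.of_forall fun p => ENNReal.ofReal_lt_top)]
  refine integrable_congr (Eventually.of_forall fun p => ?_)
  simp only [smul_eq_mul, norm_mul, mul_pow]
  rw [ENNReal.toReal_ofReal (by positivity), mul_comm]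

theorem Psi_Psi (hg : C.Dom g v) (hf : Measurable f) (hfg : C.Dom (fun p => f p * g p) v) :
    C.Psi f (C.Psi g v) = C.Psi (fun p => f p * g p) v := by
  refine tendsto_nhds_unique (tendsto_trunc ((dom_Psi hg hf).2 hfg)) ?_
  refine (tendsto_Psi (F := fun n p => trunc f n p * g p)
    (fun n => (trunc_bd hf n).1.mul hg.1) hfg hfg.2.norm
    (Eventually.of_forall fun n => Eventually.of_forall fun p => ?_)
    (Eventually.of_forall fun p => (trunc_tendsto f p).mul_const (g p))).congr fun n => ?_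
  · rw [norm_mul, norm_mul]
    exact mul_le_mul_of_nonneg_right (norm_trunc_le f n p) (norm_nonneg _)
  · exact (Phi_Psi (trunc_bd hf n) hg).symm

lemma dom_Phi (hg : Bd g) (hf : Measurable f) :
    C.Dom f (C.Phi g v) ↔ C.Dom (fun p => f p * g p) v := by
  rw [← Psi_bd hg, dom_Psi (Dom.of_bd hg v) hf]

lemma Psi_Phi (hg : Bd g) (hf : Measurable f) (hfg : C.Dom (fun p => f p * g p) v) :
    C.Psi f (C.Phi g v) = C.Psi (fun p => f p * g p) v := by
  rw [← Psi_bd hg, Psi_Psi (Dom.of_bd hg v) hf hfg]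

lemma Dom.Phi (hf : C.Dom f v) (hg : Bd g) : C.Dom f (C.Phi g v) := by
  rw [dom_Phi hg hf.1]
  simpa only [mul_comm] using hf.bd_mul hg

lemma Psi_Phi_comm (hf : C.Dom f v) (hg : Bd g) :
    C.Psi f (C.Phi g v) = C.Phi g (C.Psi f v) := by
  rw [Phi_Psi hg hf, Psi_Phi hg hf.1 (by simpa only [mul_comm] using hf.bd_mul hg)]
  simp only [mul_comm]

lemma Psi_add_vec (hv : C.Dom f v) (hw : C.Dom f w) :
    C.Psi f (v + w) = C.Psi f v + C.Psi f w := by
  refine tendsto_nhds_unique (tendsto_trunc (hv.add_vec hw)) ?_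
  exact ((tendsto_trunc hv).add (tendsto_trunc hw)).congr fun n => (map_add _ _ _).symm

lemma Psi_smul_vec (c : ℂ) (hv : C.Dom f v) : C.Psi f (c • v) = c • C.Psi f v := by
  refine tendsto_nhds_unique (tendsto_trunc (hv.smul_vec c)) ?_
  exact ((tendsto_trunc hv).const_smul c).congr fun n => (map_smul _ _ _).symm

lemma Psi_sub_vec (hv : C.Dom f v) (hw : C.Dom f w) :
    C.Psi f (v - w) = C.Psi f v - C.Psi f w := by
  refine tendsto_nhds_unique (tendsto_trunc (hv.sub_vec hw)) ?_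
  exact ((tendsto_trunc hv).sub (tendsto_trunc hw)).congr fun n => (map_sub _ _ _).symm

lemma Psi_zero_vec (hf : Measurable f) : C.Psi f 0 = 0 := by
  have h := Psi_smul_vec 0 (Dom.zero_vec (C := C) hf)
  simpa using h

/-- adjoints -/
theorem Psi_adj (hv : C.Dom f v) (hw : C.Dom f w) :
    Inner.inner ℂ w (C.Psi f v) = Inner.inner ℂ (C.Psi (fun p => conj (f p)) w) v := by
  refine tendsto_nhds_unique (tendsto_const_nhds.inner (𝕜 := ℂ) (tendsto_trunc hv)) ?_
  refine ((tendsto_trunc hw.cj).inner (𝕜 := ℂ) tendsto_const_nhds).congr fun n => ?_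
  rw [trunc_conj, C.adj' (trunc_bd hv.1 n)]

/-- real functions give symmetric operators -/
lemma Psi_symm {r : X → ℝ} (hv : C.Dom (fun p => (r p : ℂ)) v)
    (hw : C.Dom (fun p => (r p : ℂ)) w) :
    Inner.inner ℂ w (C.Psi (fun p => (r p : ℂ)) v) =
      Inner.inner ℂ (C.Psi (fun p => (r p : ℂ)) w) v := by
  rw [Psi_adj hv hw]
  simp only [conj_ofReal]

/-- bounded truncations characterize the domain -/
theorem dom_of_bound (hf : Measurable f) {K : ℝ} (h : ∀ n, ‖C.Phi (trunc f n) v‖ ≤ K) :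
    C.Dom f v := by
  rw [dom_iff hf]
  refine ⟨(hf.norm.pow_const 2).aestronglyMeasurable, ?_⟩
  rw [hasFiniteIntegral_iff_ofReal (Eventually.of_forall fun p => by positivity)]
  have h1 : ∫⁻ p, ENNReal.ofReal (‖f p‖ ^ 2) ∂C.nu v = ∫⁻ p, liminf (fun n : ℕ =>
      ENNReal.ofReal (‖trunc f n p‖ ^ 2)) atTop ∂C.nu v := by
    refine lintegral_congr fun p => (Tendsto.liminf_eq ?_).symm
    exact (ENNReal.continuous_ofReal.tendsto _).comp ((trunc_tendsto f p).norm.pow 2)
  rw [h1]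
  refine (lintegral_liminf_le fun n =>
    ((trunc_bd hf n).1.norm.pow_const 2).ennreal_ofReal).trans_lt ?_
  refine lt_of_le_of_lt (liminf_le_of_frequently_le' (x := ENNReal.ofReal (K ^ 2))
    (Frequently.of_forall fun n => ?_)) ENNReal.ofReal_lt_top
  rw [← ofReal_integral_eq_lintegral_ofReal (memLp_sq ((trunc_bd hf n).memLp _ 2))
    (Eventually.of_forall fun p => by positivity), ← C.norm_sq (trunc_bd hf n)]
  exact ENNReal.ofReal_le_ofReal (pow_le_pow_left₀ (norm_nonneg _) (h n) 2)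

lemma norm_trunc_Phi_le (hf : C.Dom f v) (n : ℕ) : ‖C.Phi (trunc f n) v‖ ≤ ‖C.Psi f v‖ := by
  rw [← Psi_bd (trunc_bd hf.1 n), ← one_mul ‖C.Psi f v‖]
  exact norm_Psi_le hf (trunc_bd hf.1 n).1 zero_le_one
    (Eventually.of_forall fun p => by rw [one_mul]; exact norm_trunc_le f n p)

/-- the cutoff projections of a function -/
lemma tendsto_cut (hf : Measurable f) (v : H) :
    Tendsto (fun n : ℕ => C.P {p | ‖f p‖ ≤ n} v) atTop (𝓝 v) := by
  have h := C.tendsto_Phi (l := atTop) (fun n : ℕ => Bd.ind (trunc_set hf n)) (Bd.const 1) (K := 1)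
    (v := v) (Eventually.of_forall fun n => Eventually.of_forall fun p => by
      refine (norm_indicator_le_norm_self _ _).trans ?_
      simp)
    (Eventually.of_forall fun p => by
      refine tendsto_const_nhds.congr' ?_
      filter_upwards [tendsto_natCast_atTop_atTop.eventually_ge_atTop ‖f p‖] with n hn
      exact (Set.indicator_of_mem (s := {p | ‖f p‖ ≤ n}) (by exact hn)
        (fun _ => (1 : ℂ))).symm)
  rw [C.one] at h
  exact h

omit [MeasurableSpace X] in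
lemma mul_ind (f : X → ℂ) (n : ℕ) :
    (fun p => f p * {p | ‖f p‖ ≤ n}.indicator (fun _ => (1 : ℂ)) p) = trunc f n := by
  funext p
  by_cases hp : ‖f p‖ ≤ n <;> simp [trunc, hp]

lemma dom_cut (hf : Measurable f) (n : ℕ) (v : H) : C.Dom f (C.P {p | ‖f p‖ ≤ n} v) := by
  rw [P, dom_Phi (Bd.ind (trunc_set hf n)) hf, mul_ind]
  exact Dom.of_bd (trunc_bd hf n) v

lemma Psi_cut (hf : Measurable f) (n : ℕ) (v : H) :
    C.Psi f (C.P {p | ‖f p‖ ≤ n} v) = C.Phi (trunc f n) v := by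
  rw [P, Psi_Phi (Bd.ind (trunc_set hf n)) hf (by rw [mul_ind]; exact Dom.of_bd (trunc_bd hf n) v),
    mul_ind, Psi_bd (trunc_bd hf n)]

/-- the domains are dense -/
lemma dense_dom (hf : Measurable f) : Dense {v | C.Dom f v} := fun v =>
  mem_closure_of_tendsto (tendsto_cut hf v) (Eventually.of_forall fun n => dom_cut hf n v)

/-- **weak characterization of the domain** (the adjoint of `f(P)` is `(conj f)(P)`) -/
theorem dom_of_weak (hf : Measurable f) {u : H}
    (h : ∀ w, C.Dom f w → Inner.inner ℂ (C.Psi (fun p => conj (f p)) w) v = Inner.inner ℂ w u) :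
    C.Dom f v ∧ C.Psi f v = u := by
  have h1 : ∀ n : ℕ, C.Phi (trunc f n) v = C.P {p | ‖f p‖ ≤ n} u := by
    intro n
    refine ext_inner_left ℂ fun z => ?_
    have h2 := h _ (dom_cut hf n z)
    have h3 := Psi_cut (C := C) (continuous_conj.measurable.comp hf) n z
    simp only [Function.comp_def, RCLike.norm_conj] at h3
    rw [h3, trunc_conj, ← C.adj' (trunc_bd hf n), P, C.adj (Bd.ind (trunc_set hf n))] at h2
    rw [h2, P]
    congr 3
    funext p
    by_cases hp : ‖f p‖ ≤ n <;> simp [hp]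
  have h2 : C.Dom f v := by
    refine dom_of_bound hf (K := 1 * ‖u‖) fun n => ?_
    rw [h1]
    refine C.norm_le (Bd.ind (trunc_set hf n)) zero_le_one u (Eventually.of_forall fun p => ?_)
    refine (norm_indicator_le_norm_self _ _).trans ?_
    simp
  refine ⟨h2, tendsto_nhds_unique (tendsto_trunc h2) ?_⟩
  simp_rw [h1]
  exact tendsto_cut hf u

/-- **closedness**, with weak convergence -/
theorem dom_of_lim {ι : Type*} {l : Filter ι} [l.NeBot] (hf : Measurable f) {V : ι → H} {u : H}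
    (hV : ∀ᶠ i in l, C.Dom f (V i))
    (h1 : ∀ z, Tendsto (fun i => Inner.inner ℂ z (V i)) l (𝓝 (Inner.inner ℂ z v)))
    (h2 : ∀ z, Tendsto (fun i => Inner.inner ℂ z (C.Psi f (V i))) l (𝓝 (Inner.inner ℂ z u))) :
    C.Dom f v ∧ C.Psi f v = u := by
  refine dom_of_weak hf fun w hw => tendsto_nhds_unique (h1 _) ((h2 w).congr' ?_)
  filter_upwards [hV] with i hi
  exact Psi_adj hi hw

/-- a bounded family in the domain that converges weakly has its limit in the domain -/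
theorem dom_of_lim_bdd {ι : Type*} {l : Filter ι} [l.NeBot] (hf : Measurable f) {V : ι → H}
    {K : ℝ} (hV : ∀ᶠ i in l, C.Dom f (V i) ∧ ‖C.Psi f (V i)‖ ≤ K)
    (h1 : ∀ z, Tendsto (fun i => Inner.inner ℂ z (V i)) l (𝓝 (Inner.inner ℂ z v))) :
    C.Dom f v ∧ ‖C.Psi f v‖ ≤ K := by
  have hK : 0 ≤ K := by
    obtain ⟨i, hi⟩ := hV.exists
    exact (norm_nonneg _).trans hi.2
  have h2 : ∀ n, ‖C.Phi (trunc f n) v‖ ≤ K := by
    intro n
    set u := C.Phi (trunc f n) v with hu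
    have h3 : ‖Inner.inner ℂ u u‖ ≤ ‖u‖ * K := by
      have h4 := h1 (C.Phi (fun p => conj (trunc f n p)) u)
      rw [← C.adj' (trunc_bd hf n), ← hu] at h4
      refine le_of_tendsto h4.norm ?_
      filter_upwards [hV] with i hi
      rw [← C.adj' (trunc_bd hf n)]
      exact (norm_inner_le_norm _ _).trans (mul_le_mul_of_nonneg_left
        ((norm_trunc_Phi_le hi.1 n).trans hi.2) (norm_nonneg _))
    rw [inner_self_eq_norm_sq_to_K, norm_pow, RCLike.norm_ofReal, abs_norm] at h3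
    by_contra h5
    push Not at h5
    have := norm_nonneg u
    nlinarith
  have h3 := dom_of_bound hf h2
  exact ⟨h3, le_of_tendsto (tendsto_trunc h3).norm (Eventually.of_forall h2)⟩

/-- intertwiners of the bounded calculi intertwine the unbounded calculi -/
theorem Psi_intertwine {X' H' : Type*} [MeasurableSpace X'] [NormedAddCommGroup H']
    [InnerProductSpace ℂ H'] [CompleteSpace H'] {C' : Calc X' H'} {W : H →L[ℂ] H'} {k : X' → X}
    (hk : Measurable k) (hW : ∀ g, Bd g → W (C.Phi g v) = C'.Phi (fun p => g (k p)) (W v))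
    (hf : C.Dom f v) :
    C'.Dom (fun p => f (k p)) (W v) ∧ C'.Psi (fun p => f (k p)) (W v) = W (C.Psi f v) := by
  have e : ∀ n, C'.Phi (trunc (fun p => f (k p)) n) (W v) = W (C.Phi (trunc f n) v) := fun n =>
    (hW _ (trunc_bd hf.1 n)).symm
  have h1 : C'.Dom (fun p => f (k p)) (W v) := by
    refine dom_of_bound (hf.1.comp hk) (K := ‖W‖ * ‖C.Psi f v‖) fun n => ?_
    rw [e]
    exact (W.le_opNorm _).trans
      (mul_le_mul_of_nonneg_left (norm_trunc_Phi_le hf n) (norm_nonneg _))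
  refine ⟨h1, tendsto_nhds_unique (tendsto_trunc h1) ?_⟩
  simp_rw [e]
  exact (W.continuous.tendsto _).comp (tendsto_trunc hf)

lemma map_Psi {Z : Type*} [MeasurableSpace Z] (k : X → Z) (hk : Measurable k) (f : Z → ℂ)
    (v : H) : (C.map k hk).Psi f v = C.Psi (fun p => f (k p)) v := rfl

lemma map_dom {Z : Type*} [MeasurableSpace Z] {k : X → Z} (hk : Measurable k) {f : Z → ℂ}
    (hf : Measurable f) (v : H) : (C.map k hk).Dom f v ↔ C.Dom (fun p => f (k p)) v := by
  unfold Dom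
  rw [map_nu, memLp_map_measure_iff hf.aestronglyMeasurable hk.aemeasurable]
  exact ⟨fun h => ⟨hf.comp hk, h.2⟩, fun h => ⟨hf, h.2⟩⟩

end Calc

end Vale.Agent.P352X.SN

end
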