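import Vale.Agent.P352X.SN.Rep

/-!
# P352X, block SN: quotients, antilinear maps, comparison of calculi
-/

noncomputable section

open MeasureTheory Filter Topology Complex Set
open scoped ENNReal NNReal ComplexConjugate

namespace Vale.Agent.P352X.SN

variable {X : Type*} [MeasurableSpace X]
variable {H : Type*} [NormedAddCommGroup H] [InnerProductSpace ℂ H] [CompleteSpace H]

namespace Calc

variable {C : Calc X H} {f g : X → ℂ} {v w : H}

lemma Dom.congr_ae (hf : C.Dom f v) (hg : Measurable g) (h : f =ᵐ[C.nu v] g) : C.Dom g v :=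
  ⟨hg, hf.2.ae_eq h⟩

/-- **division**: `f(P) v = g(P) w` gives `(f / g)(P) v = w` -/
theorem Psi_div (hf : C.Dom f v) (hg : C.Dom g w) (h : C.Psi f v = C.Psi g w)
    (h0 : ∀ᵐ p ∂C.nu w, g p ≠ 0) :
    C.Dom (fun p => f p / g p) v ∧ C.Psi (fun p => f p / g p) v = w := by
  have hA : ∀ n : ℕ, MeasurableSet {p | ((n : ℝ) + 1)⁻¹ ≤ ‖g p‖} := fun n =>
    measurableSet_le measurable_const hg.1.norm
  have hb : ∀ n : ℕ, Bd ({p | ((n : ℝ) + 1)⁻¹ ≤ ‖g p‖}.indicator fun p => (g p)⁻¹) := fun n =>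
    ⟨hg.1.inv.indicator (hA n), (n : ℝ) + 1, fun p => by
      by_cases hp : p ∈ {p | ((n : ℝ) + 1)⁻¹ ≤ ‖g p‖}
      · rw [indicator_of_mem hp, norm_inv]
        exact inv_le_of_inv_le₀ (by positivity) hp
      · rw [indicator_of_notMem hp, norm_zero]
        positivity⟩
  have h1 : Tendsto (fun n : ℕ => ((n : ℝ) + 1)⁻¹) atTop (𝓝 0) :=
    (tendsto_natCast_atTop_atTop.atTop_add tendsto_const_nhds).inv_tendsto_atTop
  have e : ∀ n : ℕ, C.Psi (fun p => {p | ((n : ℝ) + 1)⁻¹ ≤ ‖g p‖}.indicator (fun p => (g p)⁻¹) p *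
      f p) v = C.P {p | ((n : ℝ) + 1)⁻¹ ≤ ‖g p‖} w := fun n => by
    rw [← Phi_Psi (hb n) hf, h, Phi_Psi (hb n) hg, P, ← Psi_bd (Bd.ind (hA n))]
    congr 1
    funext p
    by_cases hp : p ∈ {p | ((n : ℝ) + 1)⁻¹ ≤ ‖g p‖}
    · rw [indicator_of_mem hp, indicator_of_mem hp, inv_mul_cancel₀]
      exact norm_pos_iff.1 (lt_of_lt_of_le (by positivity) hp)
    · rw [indicator_of_notMem hp, indicator_of_notMem hp, zero_mul]
  have hl : ∀ p, Tendsto (fun n : ℕ => {p | ((n : ℝ) + 1)⁻¹ ≤ ‖g p‖}.indicator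
      (fun p => (g p)⁻¹) p * f p) atTop (𝓝 (f p / g p)) := fun p => by
    refine tendsto_const_nhds.congr' ?_
    by_cases hp : g p = 0
    · refine Eventually.of_forall fun n => ?_
      simp [indicator, hp]
    · filter_upwards [h1.eventually_le_const (norm_pos_iff.2 hp)] with n hn
      rw [indicator_of_mem (show p ∈ {p | ((n : ℝ) + 1)⁻¹ ≤ ‖g p‖} from hn), div_eq_inv_mul]
  have hd := (dom_of_fatou (C := C) (v := v) (fun n => (hb n).1.mul hf.1) (hf.1.div hg.1)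
    (Eventually.of_forall hl) (K := ‖w‖) (Frequently.of_forall fun n =>
      ⟨hf.bd_mul (hb n), (congrArg norm (e n)).trans_le (norm_P_le (hA n) w)⟩)).1
  refine ⟨hd, tendsto_nhds_unique (tendsto_Psi (fun n => (hb n).1.mul hf.1) hd hd.2.norm
    (Eventually.of_forall fun n => Eventually.of_forall fun p => ?_) (Eventually.of_forall hl)) ?_⟩
  · simp only [Pi.mul_apply, Pi.div_apply, norm_mul, div_eq_inv_mul]
    exact mul_le_mul_of_nonneg_right (norm_indicator_le_norm_self _ _) (norm_nonneg _)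
  · have h2 := tendsto_P (C := C) (v := w) hA MeasurableSet.univ (by
      filter_upwards [h0] with p hp
      filter_upwards [h1.eventually_le_const (norm_pos_iff.2 hp)] with n hn
      simpa using hn)
    rw [P_univ] at h2
    exact h2.congr fun n => (e n).symm

/-- products of unbounded functions -/
lemma Psi_mul (hg : C.Dom g v) (hf : C.Dom f (C.Psi g v)) :
    C.Dom (fun p => f p * g p) v ∧ C.Psi (fun p => f p * g p) v = C.Psi f (C.Psi g v) :=
  ⟨(dom_Psi hg hf.1).1 hf, (Psi_Psi hg hf.1 ((dom_Psi hg hf.1).1 hf)).symm⟩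

/-- intertwining of the unbounded calculus by antilinear maps -/
theorem Psi_intertwine_anti {X' H' : Type*} [MeasurableSpace X'] [NormedAddCommGroup H']
    [InnerProductSpace ℂ H'] [CompleteSpace H'] {C' : Calc X' H'} {W : H →L⋆[ℂ] H'} {k : X' → X}
    (hk : Measurable k) (hW : ∀ g, Bd g → W (C.Phi g v) = C'.Phi (fun p => conj (g (k p))) (W v))
    (hf : C.Dom f v) : C'.Dom (fun p => conj (f (k p))) (W v) ∧
      C'.Psi (fun p => conj (f (k p))) (W v) = W (C.Psi f v) := by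
  have e : ∀ n, C'.Phi (trunc (fun p => conj (f (k p))) n) (W v) = W (C.Phi (trunc f n) v) :=
    fun n => by
    rw [trunc_conj]
    exact (hW _ (trunc_bd hf.1 n)).symm
  have h1 : C'.Dom (fun p => conj (f (k p))) (W v) := by
    refine dom_of_bound (continuous_conj.measurable.comp (hf.1.comp hk))
      (K := ‖W‖ * ‖C.Psi f v‖) fun n => ?_
    exact (congrArg norm (e n)).trans_le ((W.le_opNorm _).trans
      (mul_le_mul_of_nonneg_left (norm_trunc_Phi_le hf n) (norm_nonneg _)))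
  refine ⟨h1, tendsto_nhds_unique (tendsto_trunc h1) ?_⟩
  simp only [e]
  exact (W.continuous.tendsto _).comp (tendsto_trunc hf)

/-- a property of almost all points passes to sums -/
lemma ae_add {B : Set X} (hv : ∀ᵐ p ∂C.nu v, p ∈ B) (hw : ∀ᵐ p ∂C.nu w, p ∈ B) :
    ∀ᵐ p ∂C.nu (v + w), p ∈ B := by
  refine (Measure.absolutelyContinuous_of_le (C.nu_add_le v w)).ae_le ?_
  exact Measure.ae_smul_measure (by rw [ae_add_measure_iff]; exact ⟨hv, hw⟩) _

lemma ae_smul {B : Set X} (c : ℂ) (hv : ∀ᵐ p ∂C.nu v, p ∈ B) : ∀ᵐ p ∂C.nu (c • v), p ∈ B := by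
  rw [C.nu_smul]
  exact Measure.ae_smul_measure hv _

/-- measures under isometric intertwiners -/
lemma nu_intertwine {X' H' : Type*} [MeasurableSpace X'] [NormedAddCommGroup H']
    [InnerProductSpace ℂ H'] [CompleteSpace H'] {C' : Calc X' H'} {W : H → H'}
    (hn : ∀ u, ‖W u‖ = ‖u‖) {k : X' → X} (hk : Measurable k) {w : H'}
    (hW : ∀ A, MeasurableSet A → W (C.P A v) = C'.P (k ⁻¹' A) w) :
    (C'.nu w).map k = C.nu v := by
  ext A hA
  rw [Measure.map_apply hk hA, C.nu_apply hA, C'.nu_apply (hk hA), ← hW A hA, hn]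

end Calc

variable {Y : Type*} [AddCommGroup Y] [Module ℝ Y] [TopologicalSpace Y] {pr : X → Y → ℝ}

/-- two calculi agree on the functions of a common subgroup -/
theorem common {X₁ X₂ : Type*} [MeasurableSpace X₁] [MeasurableSpace X₂] (hp : IsPair pr)
    (C₁ : Calc X₁ H) (C₂ : Calc X₂ H) {k₁ : X₁ → X} {k₂ : X₂ → X} (h₁ : Measurable k₁)
    (h₂ : Measurable k₂)
    (h : ∀ y v, C₁.Phi (fun p => ch pr y (k₁ p)) v = C₂.Phi (fun p => ch pr y (k₂ p)) v) :
    (∀ f, Bd f → ∀ v, C₁.Phi (fun p => f (k₁ p)) v = C₂.Phi (fun p => f (k₂ p)) v) ∧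
    (∀ v, (C₁.nu v).map k₁ = (C₂.nu v).map k₂) ∧
    ∀ f, Measurable f → ∀ v, (C₁.Dom (fun p => f (k₁ p)) v ↔ C₂.Dom (fun p => f (k₂ p)) v) ∧
      C₁.Psi (fun p => f (k₁ p)) v = C₂.Psi (fun p => f (k₂ p)) v := by
  have a1 : ∀ f, Bd f → ∀ v, C₁.Phi (fun p => f (k₁ p)) v = C₂.Phi (fun p => f (k₂ p)) v :=
    fun f hf v => Calc.inter_of_ch hp (C₁.map k₁ h₁) (C₂.map k₂ h₂) (ContinuousLinearMap.id ℂ H)
      (fun y => h y v) hf
  have a2 : ∀ v, (C₁.nu v).map k₁ = (C₂.nu v).map k₂ := fun v =>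
    Calc.nu_ext (C := C₁.map k₁ h₁) (C' := C₂.map k₂ h₂) fun A hA => a1 _ (Bd.ind hA) v
  refine ⟨a1, a2, fun f hf v => ⟨?_, ?_⟩⟩
  · rw [← Calc.map_dom h₁ hf, ← Calc.map_dom h₂ hf, Calc.Dom, Calc.Dom, Calc.map_nu, Calc.map_nu,
      a2]
  · unfold Calc.Psi
    congr 1
    funext n
    exact a1 _ (Calc.trunc_bd hf n) v

end Vale.Agent.P352X.SN

end
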